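import Vale.Agent.P155.QQ.Iter
import Vale.Agent.P155.V743.Ind
import Vale.Agent.P155.NT814Y.Cut
import Vale.Agent.P155.NT34.YFr

/-!
# P155, restriction property of the first level: `kk` and its holes, definitions
-/

namespace Vale.Agent.P155.SW613

open MeasureTheory Filter Topology TopologicalSpace ProbabilityTheory Set Vale.Agent.P155
  Vale.Agent.P155.Q1

/-- `K` together with the closures of the holes of `A` whose closures meet `K` -/
def kk (Ω K : Set ℂ) (A : NonemptyCompacts ℂ) : Set ℂ :=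
  closure (K ∪ ⋃ U ∈ {U : Set ℂ | IsHole Ω A U ∧ (closure U ∩ K).Nonempty}, closure U)

/-- the part of `kk` in the closure of `Ω` -/
noncomputable def KKc (Ω K : Set ℂ) (A : NonemptyCompacts ℂ) : NonemptyCompacts ℂ :=
  toNC (kk Ω K A ∩ closure Ω)

/-- the component of `Ω \ y` at `z` -/
def Vz (Ω : Set ℂ) (y : NonemptyCompacts ℂ) (z : ℂ) : Set ℂ :=
  connectedComponentIn (Ω \ (y : Set ℂ)) z

/-- `z` is not in `y`, the support of `φ` is in the component of `Ω \ y` at `z`, and `C` is disjoint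
from the closure of this component -/
def Ev (Ω : Set ℂ) (z : ℂ) (φ : ℂ → ℝ) (C : Set ℂ) (y : NonemptyCompacts ℂ) : Prop :=
  z ∈ Ω \ (y : Set ℂ) ∧ tsupport φ ⊆ Vz Ω y z ∧ Disjoint C (closure (Vz Ω y z))

end Vale.Agent.P155.SW613
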