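import Vale.Agent.P155.SW613.Def

/-!
# P155, restriction property of the first level: geometry of `kk`
-/

namespace Vale.Agent.P155.SW613

open MeasureTheory Filter Topology TopologicalSpace ProbabilityTheory Set Vale.Agent.P155
  Vale.Agent.P155.Q1

/-- the assumptions on the data -/
structure Dat (Ω K : Set ℂ) : Prop where
  ho : IsOpen Ω
  hb : Bornology.IsBounded Ω
  hne : Ω.Nonempty
  hfr : IsConnected (frontier Ω)
  hK : IsClosed K
  hKc : IsConnected K
  hKo : Ωᶜ ⊆ K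

variable {Ω K : Set ℂ} {A : NonemptyCompacts ℂ}

theorem kk_closed : IsClosed (kk Ω K A) := isClosed_closure

theorem sub_kk : K ⊆ kk Ω K A := subset_union_left.trans subset_closure

theorem Dat.off_kk (h : Dat Ω K) : Ωᶜ ⊆ kk Ω K A := h.hKo.trans sub_kk

theorem hole_sub_kk {U : Set ℂ} (hU : IsHole Ω A U) (hK : (closure U ∩ K).Nonempty) :
    closure U ⊆ kk Ω K A := by
  intro x hx
  apply subset_closure
  refine Or.inr (mem_biUnion (show U ∈ {U : Set ℂ | IsHole Ω A U ∧ (closure U ∩ K).Nonempty} from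
    ⟨hU, hK⟩) hx)

theorem hole_conn {U : Set ℂ} (hU : IsHole Ω A U) : IsConnected U := by
  obtain ⟨z, hz, rfl⟩ := hU
  exact isConnected_connectedComponentIn_iff.2 hz

theorem kk_connected (hK : IsConnected K) : IsConnected (kk Ω K A) := by
  refine IsConnected.closure ?_
  set S : Set (Set ℂ) := {U : Set ℂ | IsHole Ω A U ∧ (closure U ∩ K).Nonempty}
  have e : K ∪ ⋃ U ∈ S, closure U = ⋃ T ∈ insert K ((fun U => K ∪ closure U) '' S), T := by
    ext x
    simp only [mem_union, mem_iUnion, mem_insert_iff, mem_image]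
    constructor
    · rintro (hx | ⟨U, hU, hx⟩)
      · exact ⟨K, Or.inl rfl, hx⟩
      · exact ⟨K ∪ closure U, Or.inr ⟨U, hU, rfl⟩, Or.inr hx⟩
    · rintro ⟨T, rfl | ⟨U, hU, rfl⟩, hx⟩
      · exact Or.inl hx
      · rcases hx with hx | hx
        · exact Or.inl hx
        · exact Or.inr ⟨U, hU, hx⟩
  rw [e]
  obtain ⟨x, hx⟩ := hK.nonempty
  refine ⟨⟨x, mem_biUnion (mem_insert K _) hx⟩, ?_⟩
  rw [← sUnion_eq_biUnion]
  refine isPreconnected_sUnion x _ ?_ ?_
  · rintro T (rfl | ⟨U, hU, rfl⟩)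
    · exact hx
    · exact Or.inl hx
  · rintro T (rfl | ⟨U, hU, rfl⟩)
    · exact hK.isPreconnected
    · obtain ⟨w, hw1, hw2⟩ := hU.2
      exact IsPreconnected.union w hw2 hw1 hK.isPreconnected
        (hole_conn hU.1).isPreconnected.closure

theorem Dat.frontier_sub (h : Dat Ω K) : frontier Ω ⊆ kk Ω K A ∩ closure Ω := by
  intro x hx
  refine ⟨h.off_kk fun hxΩ => ?_, frontier_subset_closure hx⟩
  rw [h.ho.frontier_eq] at hx
  exact hx.2 hxΩ

theorem Dat.coe_KKc (h : Dat Ω K) : (KKc Ω K A : Set ℂ) = kk Ω K A ∩ closure Ω := by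
  unfold KKc toNC
  have hcΩ : IsCompact (closure Ω) := h.hb.isCompact_closure
  rw [dif_pos ⟨hcΩ.inter_left kk_closed, h.hfr.nonempty.mono h.frontier_sub⟩]
  rfl

theorem Dat.fr_KKc (h : Dat Ω K) : frontier Ω ⊆ (KKc Ω K A : Set ℂ) := by
  rw [h.coe_KKc]
  exact h.frontier_sub

theorem Dat.compl_KKc (h : Dat Ω K) : Ω \ (KKc Ω K A : Set ℂ) = (kk Ω K A)ᶜ := by
  rw [h.coe_KKc]
  ext x
  constructor
  · rintro ⟨h1, h2⟩ h3
    exact h2 ⟨h3, subset_closure h1⟩
  · intro hx
    have hxΩ : x ∈ Ω := by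
      by_contra hn
      exact hx (h.off_kk hn)
    exact ⟨hxΩ, fun h2 => hx h2.1⟩

theorem Dat.kk_eq (h : Dat Ω K) : kk Ω K A = K ∪ (KKc Ω K A : Set ℂ) := by
  rw [h.coe_KKc]
  ext x
  constructor
  · intro hx
    by_cases hxc : x ∈ closure Ω
    · exact Or.inr ⟨hx, hxc⟩
    · exact Or.inl (h.hKo fun hxΩ => hxc (subset_closure hxΩ))
  · rintro (hx | hx)
    · exact sub_kk hx
    · exact hx.1

theorem Dat.conn_KKc (h : Dat Ω K) : IsConnected (KKc Ω K A : Set ℂ) := by
  have hne : (KKc Ω K A : Set ℂ).Nonempty := h.hfr.nonempty.mono h.fr_KKc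
  refine ⟨hne, ?_⟩
  have hkk : IsConnected (kk Ω K A) := kk_connected h.hKc
  have hcl : IsClosed (KKc Ω K A : Set ℂ) := (KKc Ω K A).isCompact.isClosed
  have key : ∀ t t' : Set ℂ, IsClosed t → IsClosed t' → (KKc Ω K A : Set ℂ) ⊆ t ∪ t' →
      ((KKc Ω K A : Set ℂ) ∩ t').Nonempty → ¬ ((KKc Ω K A : Set ℂ) ∩ (t ∩ t')).Nonempty →
      frontier Ω ⊆ t → False := by
    intro t t' ht ht' hsub hne' hno hft
    obtain ⟨x, hx, hx1, hx2⟩ := isPreconnected_closed_iff.1 hkk.isPreconnected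
      (((KKc Ω K A : Set ℂ) ∩ t) ∪ Ωᶜ) ((KKc Ω K A : Set ℂ) ∩ t')
      ((hcl.inter ht).union h.ho.isClosed_compl) (hcl.inter ht')
      (by
        intro x hx
        by_cases hxΩ : x ∈ Ω
        · have hxK : x ∈ (KKc Ω K A : Set ℂ) := by
            rw [h.coe_KKc]
            exact ⟨hx, subset_closure hxΩ⟩
          rcases hsub hxK with h1 | h1
          · exact Or.inl (Or.inl ⟨hxK, h1⟩)
          · exact Or.inr ⟨hxK, h1⟩
        · exact Or.inl (Or.inr hxΩ))
      (by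
        obtain ⟨x, hx⟩ := h.hfr.nonempty
        exact ⟨x, (h.frontier_sub hx).1, Or.inl ⟨h.fr_KKc hx, hft hx⟩⟩)
      (by
        obtain ⟨x, hx1, hx2⟩ := hne'
        refine ⟨x, ?_, hx1, hx2⟩
        rw [h.coe_KKc] at hx1
        exact hx1.1)
    rcases hx1 with hx1 | hx1
    · exact hno ⟨x, hx1.1, hx1.2, hx2.2⟩
    · have hxf : x ∈ frontier Ω := by
        have h3 := hx2.1
        rw [h.coe_KKc] at h3
        rw [h.ho.frontier_eq]
        exact ⟨h3.2, hx1⟩
      exact hno ⟨x, hx2.1, hft hxf, hx2.2⟩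
  rw [isPreconnected_closed_iff]
  intro t t' ht ht' hsub hne1 hne2
  by_contra hno
  have h2 : frontier Ω ⊆ t ∨ frontier Ω ⊆ t' := by
    by_contra hcon
    push Not at hcon
    obtain ⟨z, hz, hzt⟩ := not_subset.1 hcon.1
    obtain ⟨w, hw, hwt⟩ := not_subset.1 hcon.2
    have hz' : z ∈ t' := (hsub (h.fr_KKc hz)).resolve_left hzt
    have hw' : w ∈ t := (hsub (h.fr_KKc hw)).resolve_right hwt
    obtain ⟨u, hu, hu2⟩ := isPreconnected_closed_iff.1 h.hfr.isPreconnected t t' ht ht'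
      (h.fr_KKc.trans hsub) ⟨w, hw, hw'⟩ ⟨z, hz, hz'⟩
    exact hno ⟨u, h.fr_KKc hu, hu2⟩
  rcases h2 with h2 | h2
  · exact key t t' ht ht' hsub hne2 hno h2
  · refine key t' t ht' ht (by rwa [union_comm]) hne1 ?_ h2
    rwa [inter_comm t' t]

/-- the facts about a hole `V` of `KK` -/
theorem Dat.facts (h : Dat Ω K) {V : Set ℂ} (hV : IsHole Ω (KKc Ω K A) V) :
    IsOpen V ∧ IsConnected V ∧ V ⊆ Ω \ (KKc Ω K A : Set ℂ) ∧ frontier V ⊆ (KKc Ω K A : Set ℂ) ∧
      IsPreconnected Vᶜ ∧ IsConnected (frontier V) ∧ IsSimplyConnected V ∧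
      Bornology.IsBounded V ∧ IsOpen ((Ω \ (KKc Ω K A : Set ℂ)) \ V) :=
  NT34.Y.hole_facts h.ho h.hb (KKc Ω K A).isCompact.isClosed h.conn_KKc.isPreconnected h.fr_KKc hV

/-- **the boundary of a hole of `KK` is contained in the first carpet** -/
theorem Dat.frontier_hole (h : Dat Ω K) (hA : frontier Ω ⊆ (A : Set ℂ)) {V : Set ℂ}
    (hV : IsHole Ω (KKc Ω K A) V) : frontier V ⊆ (A : Set ℂ) := by
  obtain ⟨hVo, hVc, hVs, hVf, -⟩ := h.facts hV
  intro x hx
  by_contra hxA
  have hxk : x ∈ kk Ω K A := by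
    have := hVf hx
    rw [h.coe_KKc] at this
    exact this.1
  have hxc : x ∈ closure Ω := closure_mono (hVs.trans sdiff_subset) (frontier_subset_closure hx)
  have hxΩ : x ∈ Ω := by
    by_contra hn
    apply hxA
    apply hA
    rw [h.ho.frontier_eq]
    exact ⟨hxc, hn⟩
  -- the hole of `A` at `x`
  set U : Set ℂ := connectedComponentIn (Ω \ (A : Set ℂ)) x with hU
  have hUh : IsHole Ω A U := ⟨x, ⟨hxΩ, hxA⟩, rfl⟩
  have hUo : IsOpen U := (h.ho.sdiff A.isCompact.isClosed).connectedComponentIn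
  have hxU : x ∈ U := mem_connectedComponentIn ⟨hxΩ, hxA⟩
  obtain ⟨w, hwU, hwV⟩ := mem_closure_iff.1 (frontier_subset_closure hx) U hUo hxU
  have hno : ¬ (closure U ∩ K).Nonempty := by
    intro hn
    have h1 : w ∈ kk Ω K A := hole_sub_kk hUh hn (subset_closure hwU)
    have h2 := hVs hwV
    rw [h.compl_KKc] at h2
    exact h2 h1
  obtain ⟨v, hvU, hv⟩ := mem_closure_iff.1 hxk U hUo hxU
  rcases hv with hv | hv
  · exact hno ⟨v, subset_closure hvU, hv⟩
  · obtain ⟨U', hU', hvU'⟩ := mem_iUnion₂.1 hv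
    obtain ⟨v', hv'U, hv'U'⟩ := mem_closure_iff.1 hvU' U hUo hvU
    have : U = U' := by
      obtain ⟨z', hz', rfl⟩ := hU'.1
      rw [hU]
      exact (connectedComponentIn_eq hv'U).trans (connectedComponentIn_eq hv'U').symm
    rw [← this] at hU'
    exact hno hU'.2

/-- holes of the first carpet are in a hole of `KK` or do not meet it -/
theorem Dat.hole_cases (h : Dat Ω K) (hA : frontier Ω ⊆ (A : Set ℂ)) {V U : Set ℂ}
    (hV : IsHole Ω (KKc Ω K A) V) (hU : IsHole Ω A U) : U ⊆ V ∨ Disjoint U V := by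
  by_cases hd : (U ∩ V).Nonempty
  · left
    have hf := h.frontier_hole hA hV
    have hVo := (h.facts hV).1
    have hUc := hole_conn hU
    have hUA : Disjoint U (A : Set ℂ) := by
      obtain ⟨z, hz, rfl⟩ := hU
      exact Set.disjoint_left.2 fun w hw => (connectedComponentIn_subset _ _ hw).2
    have hUf : Disjoint U (frontier V) := hUA.mono_right hf
    refine hUc.isPreconnected.subset_of_closure_inter_subset hVo hd ?_
    rintro w ⟨hw1, hw2⟩
    by_contra hn
    exact Set.disjoint_left.1 hUf hw2 (by rw [hVo.frontier_eq]; exact ⟨hw1, hn⟩)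
  · right
    rw [not_nonempty_iff_eq_empty] at hd
    exact Set.disjoint_iff_inter_eq_empty.2 hd

/-- a hole of the first carpet lies in a hole of `KK`, or its closure is contained in `KK` -/
theorem Dat.hole_cases' (h : Dat Ω K) {U : Set ℂ} (hU : IsHole Ω A U) :
    (∃ V, IsHole Ω (KKc Ω K A) V ∧ U ⊆ V) ∨ (closure U ∩ K).Nonempty := by
  by_cases hn : (closure U ∩ K).Nonempty
  · exact Or.inr hn
  · left
    have hUo : IsOpen U := by
      obtain ⟨z, hz, rfl⟩ := hU
      exact (h.ho.sdiff A.isCompact.isClosed).connectedComponentIn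
    have hUk : Disjoint U (kk Ω K A) := by
      rw [Set.disjoint_left]
      intro x hxU hxk
      obtain ⟨v, hvU, hv⟩ := mem_closure_iff.1 hxk U hUo hxU
      rcases hv with hv | hv
      · exact hn ⟨v, subset_closure hvU, hv⟩
      · obtain ⟨U', hU', hvU'⟩ := mem_iUnion₂.1 hv
        obtain ⟨v', hv'U, hv'U'⟩ := mem_closure_iff.1 hvU' U hUo hvU
        have : U = U' := by
          obtain ⟨z', hz', rfl⟩ := hU'.1
          obtain ⟨z, hz, rfl⟩ := hU
          exact (connectedComponentIn_eq hv'U).trans (connectedComponentIn_eq hv'U').symm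
        rw [← this] at hU'
        exact hn hU'.2
    obtain ⟨x, hx⟩ := (hole_conn hU).nonempty
    have hsub : U ⊆ Ω \ (KKc Ω K A : Set ℂ) := by
      rw [h.compl_KKc]
      exact fun w hw => Set.disjoint_left.1 hUk hw
    exact ⟨connectedComponentIn (Ω \ (KKc Ω K A : Set ℂ)) x, ⟨x, hsub hx, rfl⟩,
      (hole_conn hU).isPreconnected.subset_connectedComponentIn hx hsub⟩

end Vale.Agent.P155.SW613
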