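import Vale.Agent.P155.SW613.Geo

/-!
# P155, restriction property of the first level: measurability of `KK` and of the events
-/

namespace Vale.Agent.P155.SW613

open MeasureTheory Filter Topology TopologicalSpace ProbabilityTheory Set Vale.Agent.P155
  Vale.Agent.P155.Q1

noncomputable local instance instNC : MeasurableSpace (NonemptyCompacts ℂ) := borel _

local instance instBNC : BorelSpace (NonemptyCompacts ℂ) := ⟨rfl⟩

variable {Ω K : Set ℂ}

theorem isOpen_joined (hΩ : IsOpen Ω) (z w : ℂ) :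
    IsOpen {y : NonemptyCompacts ℂ | z ∈ Ω \ (y : Set ℂ) ∧ w ∈ Vz Ω y z} := by
  rw [isOpen_iff_mem_nhds]
  rintro y ⟨hz, hw⟩
  have hVo : IsOpen (Vz Ω y z) := (hΩ.sdiff y.isCompact.isClosed).connectedComponentIn
  have hVc : IsConnected (Vz Ω y z) := isConnected_connectedComponentIn_iff.2 hz
  have hpc : IsPathConnected (Vz Ω y z) := hVo.isConnected_iff_isPathConnected.1 hVc
  obtain ⟨γ, hγ⟩ := hpc.joinedIn z (mem_connectedComponentIn hz) w hw
  have hL : IsCompact (range γ) := isCompact_range γ.continuous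
  have hLc : IsConnected (range γ) := isConnected_range γ.continuous
  have hsub : range γ ⊆ Ω \ (y : Set ℂ) := by
    rintro _ ⟨t, rfl⟩
    exact connectedComponentIn_subset _ _ (hγ t)
  have hn : {y' : NonemptyCompacts ℂ | (y' : Set ℂ) ⊆ (range γ)ᶜ} ∈ 𝓝 y :=
    (NonemptyCompacts.isOpen_subsets_of_isOpen hL.isClosed.isOpen_compl).mem_nhds
      (fun x hx hx' => (hsub hx').2 hx)
  filter_upwards [hn] with y' hy'
  have hsub' : range γ ⊆ Ω \ (y' : Set ℂ) := fun x hx => ⟨(hsub hx).1, fun h => hy' h hx⟩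
  have hz' : z ∈ range γ := ⟨0, γ.source⟩
  have hw' : w ∈ range γ := ⟨1, γ.target⟩
  exact ⟨hsub' hz', hLc.isPreconnected.subset_connectedComponentIn hz' hsub' hw'⟩

theorem isOpen_reach (hΩ : IsOpen Ω) (z : ℂ) (O : Set ℂ) :
    IsOpen {y : NonemptyCompacts ℂ | z ∈ Ω \ (y : Set ℂ) ∧ (Vz Ω y z ∩ O).Nonempty} := by
  have e : {y : NonemptyCompacts ℂ | z ∈ Ω \ (y : Set ℂ) ∧ (Vz Ω y z ∩ O).Nonempty} =
      ⋃ w ∈ O, {y : NonemptyCompacts ℂ | z ∈ Ω \ (y : Set ℂ) ∧ w ∈ Vz Ω y z} := by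
    ext y
    simp only [mem_iUnion, mem_ofPred_eq]
    constructor
    · rintro ⟨h1, w, h2, h3⟩
      exact ⟨w, h3, h1, h2⟩
    · rintro ⟨w, h3, h1, h2⟩
      exact ⟨h1, w, h2, h3⟩
  rw [e]
  exact isOpen_biUnion fun w _ => isOpen_joined hΩ z w

theorem isOpen_off (hΩ : IsOpen Ω) (z : ℂ) :
    IsOpen {y : NonemptyCompacts ℂ | z ∈ Ω \ (y : Set ℂ)} := by
  have e : {y : NonemptyCompacts ℂ | z ∈ Ω \ (y : Set ℂ)} =
      {y : NonemptyCompacts ℂ | z ∈ Ω \ (y : Set ℂ) ∧ z ∈ Vz Ω y z} := by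
    ext y
    exact ⟨fun h => ⟨h, mem_connectedComponentIn h⟩, fun h => h.1⟩
  rw [e]
  exact isOpen_joined hΩ z z

theorem measurable_meets (hΩ : IsOpen Ω) (hb : Bornology.IsBounded Ω) (z : ℂ) {T : Set ℂ}
    (hT : IsClosed T) : MeasurableSet {y : NonemptyCompacts ℂ | z ∈ Ω \ (y : Set ℂ) ∧
      (closure (Vz Ω y z) ∩ T).Nonempty} := by
  have e : {y : NonemptyCompacts ℂ | z ∈ Ω \ (y : Set ℂ) ∧ (closure (Vz Ω y z) ∩ T).Nonempty} =
      ⋂ n : ℕ, {y : NonemptyCompacts ℂ | z ∈ Ω \ (y : Set ℂ) ∧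
        (Vz Ω y z ∩ Metric.thickening (1 / ((n : ℝ) + 1)) T).Nonempty} := by
    ext y
    simp only [mem_iInter, mem_ofPred_eq]
    constructor
    · rintro ⟨h1, x, h2, h3⟩ n
      have h0 : (0 : ℝ) < 1 / ((n : ℝ) + 1) := by positivity
      obtain ⟨w, hw1, hw2⟩ := mem_closure_iff.1 h2 _ Metric.isOpen_thickening
        (Metric.self_subset_thickening h0 T h3)
      exact ⟨h1, w, hw2, hw1⟩
    · intro h
      refine ⟨(h 0).1, ?_⟩
      by_contra hne
      rw [not_nonempty_iff_eq_empty] at hne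
      have hcomp : IsCompact (closure (Vz Ω y z)) :=
        (hb.subset ((connectedComponentIn_subset _ _).trans sdiff_subset)).isCompact_closure
      obtain ⟨δ, hδ, hd⟩ := (Set.disjoint_iff_inter_eq_empty.2 hne).exists_thickenings hcomp hT
      obtain ⟨n, hn⟩ := exists_nat_one_div_lt hδ
      obtain ⟨-, w, hw1, hw2⟩ := h n
      exact Set.disjoint_left.1 hd
        (Metric.self_subset_thickening hδ _ (subset_closure hw1))
        (Metric.thickening_mono hn.le _ hw2)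
  rw [e]
  exact MeasurableSet.iInter fun n => (isOpen_reach hΩ z _).measurableSet

theorem measurable_sub (hΩ : IsOpen Ω) (z : ℂ) {T : Set ℂ} (hT : IsCompact T) (hTΩ : T ⊆ Ω) :
    MeasurableSet {y : NonemptyCompacts ℂ | z ∈ Ω \ (y : Set ℂ) ∧ T ⊆ Vz Ω y z} := by
  obtain ⟨D, hDT, hDc, hD⟩ := (IsSeparable.of_separableSpace T).exists_countable_dense_subset
  have e : {y : NonemptyCompacts ℂ | z ∈ Ω \ (y : Set ℂ) ∧ T ⊆ Vz Ω y z} =
      ({y : NonemptyCompacts ℂ | z ∈ Ω \ (y : Set ℂ)} ∩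
        {y : NonemptyCompacts ℂ | (y : Set ℂ) ⊆ Tᶜ}) ∩
      ⋂ d ∈ D, {y : NonemptyCompacts ℂ | z ∈ Ω \ (y : Set ℂ) ∧ d ∈ Vz Ω y z} := by
    ext y
    simp only [mem_inter_iff, mem_iInter, mem_ofPred_eq]
    constructor
    · rintro ⟨h1, h2⟩
      refine ⟨⟨h1, fun x hx hxT => ?_⟩, fun d hd => ⟨h1, h2 (hDT hd)⟩⟩
      exact (connectedComponentIn_subset _ _ (h2 hxT)).2 hx
    · rintro ⟨⟨h1, h2⟩, h3⟩
      refine ⟨h1, fun t ht => ?_⟩
      have ht' : t ∈ Ω \ (y : Set ℂ) := ⟨hTΩ ht, fun h => h2 h ht⟩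
      have hUo : IsOpen (connectedComponentIn (Ω \ (y : Set ℂ)) t) :=
        (hΩ.sdiff y.isCompact.isClosed).connectedComponentIn
      obtain ⟨d, hd1, hd2⟩ := mem_closure_iff.1 (hD ht) _ hUo (mem_connectedComponentIn ht')
      have h4 := (h3 d hd2).2
      have h5 : connectedComponentIn (Ω \ (y : Set ℂ)) z =
          connectedComponentIn (Ω \ (y : Set ℂ)) t :=
        (connectedComponentIn_eq h4).trans (connectedComponentIn_eq hd1).symm
      unfold Vz
      rw [h5]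
      exact mem_connectedComponentIn ht'
  rw [e]
  refine ((isOpen_off hΩ z).measurableSet.inter
    (NonemptyCompacts.isOpen_subsets_of_isOpen hT.isClosed.isOpen_compl).measurableSet).inter ?_
  exact MeasurableSet.biInter hDc fun d _ => (isOpen_joined hΩ z d).measurableSet

theorem measurable_Ev (hΩ : IsOpen Ω) (hb : Bornology.IsBounded Ω) (z : ℂ) {φ : ℂ → ℝ}
    (hφ : IsTest Ω φ) {C : Set ℂ} (hC : IsClosed C) :
    MeasurableSet {y : NonemptyCompacts ℂ | Ev Ω z φ C y} := by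
  have e : {y : NonemptyCompacts ℂ | Ev Ω z φ C y} =
      {y : NonemptyCompacts ℂ | z ∈ Ω \ (y : Set ℂ) ∧ tsupport φ ⊆ Vz Ω y z} ∩
      {y : NonemptyCompacts ℂ | z ∈ Ω \ (y : Set ℂ) ∧ (closure (Vz Ω y z) ∩ C).Nonempty}ᶜ := by
    ext y
    simp only [mem_inter_iff, mem_compl_iff, mem_ofPred_eq, Ev]
    constructor
    · rintro ⟨h1, h2, h3⟩
      refine ⟨⟨h1, h2⟩, ?_⟩
      rintro ⟨-, x, hx1, hx2⟩
      exact Set.disjoint_left.1 h3 hx2 hx1
    · rintro ⟨⟨h1, h2⟩, h3⟩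
      refine ⟨h1, h2, Set.disjoint_left.2 fun x hx1 hx2 => h3 ⟨h1, x, hx2, hx1⟩⟩
  rw [e]
  exact (measurable_sub hΩ z hφ.2.1 hφ.2.2).inter (measurable_meets hΩ hb z hC).compl

theorem measurable_hit (h : Dat Ω K) {O : Set ℂ} (hO : IsOpen O) :
    MeasurableSet {A : NonemptyCompacts ℂ | ((KKc Ω K A : Set ℂ) ∩ O).Nonempty} := by
  by_cases hc : (K ∩ closure Ω ∩ O).Nonempty
  · have e : {A : NonemptyCompacts ℂ | ((KKc Ω K A : Set ℂ) ∩ O).Nonempty} = univ := by
      ext A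
      simp only [mem_ofPred_eq, mem_univ, iff_true]
      obtain ⟨x, ⟨hx1, hx2⟩, hx3⟩ := hc
      refine ⟨x, ?_, hx3⟩
      rw [h.coe_KKc]
      exact ⟨sub_kk hx1, hx2⟩
    rw [e]
    exact MeasurableSet.univ
  · have e : {A : NonemptyCompacts ℂ | ((KKc Ω K A : Set ℂ) ∩ O).Nonempty} =
        ⋃ n : ℕ, {A : NonemptyCompacts ℂ | denseSeq ℂ n ∈ O} ∩
          {A : NonemptyCompacts ℂ | denseSeq ℂ n ∈ Ω \ (A : Set ℂ) ∧
            (closure (Vz Ω A (denseSeq ℂ n)) ∩ K).Nonempty} := by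
      ext A
      simp only [mem_iUnion, mem_inter_iff, mem_ofPred_eq]
      constructor
      · rintro ⟨x, hx1, hx2⟩
        rw [h.coe_KKc] at hx1
        have hxK : x ∉ K := fun hxK => hc ⟨x, ⟨hxK, hx1.2⟩, hx2⟩
        obtain ⟨v, ⟨hvO, hvK⟩, hv⟩ := mem_closure_iff.1 hx1.1 (O ∩ Kᶜ)
          (hO.inter h.hK.isOpen_compl) ⟨hx2, hxK⟩
        rcases hv with hv | hv
        · exact absurd hv hvK
        · obtain ⟨U, hU, hvU⟩ := mem_iUnion₂.1 hv
          obtain ⟨w, hwO, hwU⟩ := mem_closure_iff.1 hvU O hO hvO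
          have hUo : IsOpen U := by
            obtain ⟨z, hz, rfl⟩ := hU.1
            exact (h.ho.sdiff A.isCompact.isClosed).connectedComponentIn
          obtain ⟨n, hn⟩ := (denseRange_denseSeq ℂ).exists_mem_open (hUo.inter hO) ⟨w, hwU, hwO⟩
          have hUe : U = Vz Ω A (denseSeq ℂ n) := by
            obtain ⟨z, hz, rfl⟩ := hU.1
            exact connectedComponentIn_eq hn.1
          refine ⟨n, hn.2, ?_, ?_⟩
          · obtain ⟨z, hz, rfl⟩ := hU.1
            exact connectedComponentIn_subset _ _ hn.1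
          · rw [← hUe]
            exact hU.2
      · rintro ⟨n, h1, h2, h3⟩
        refine ⟨denseSeq ℂ n, ?_, h1⟩
        rw [h.coe_KKc]
        exact ⟨hole_sub_kk ⟨_, h2, rfl⟩ h3 (subset_closure (mem_connectedComponentIn h2)),
          subset_closure h2.1⟩
    rw [e]
    exact MeasurableSet.iUnion fun n => (MeasurableSet.const _).inter
      (measurable_meets h.ho h.hb _ h.hK)

theorem measurable_KKc (h : Dat Ω K) : Measurable (KKc Ω K) := by
  apply NT814Y.measurable_nc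
  intro q r
  have e : {A : NonemptyCompacts ℂ | Metric.infDist q (KKc Ω K A : Set ℂ) ≤ r} =
      ⋂ n : ℕ, {A : NonemptyCompacts ℂ |
        ((KKc Ω K A : Set ℂ) ∩ Metric.ball q (r + 1 / ((n : ℝ) + 1))).Nonempty} := by
    ext A
    simp only [mem_iInter, mem_ofPred_eq]
    constructor
    · intro h1 n
      have h0 : (0 : ℝ) < 1 / ((n : ℝ) + 1) := by positivity
      obtain ⟨y, hy, hy2⟩ := (Metric.infDist_lt_iff (KKc Ω K A).nonempty).1
        (show Metric.infDist q (KKc Ω K A : Set ℂ) < r + 1 / ((n : ℝ) + 1) by linarith)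
      exact ⟨y, hy, by rwa [Metric.mem_ball, dist_comm]⟩
    · intro h1
      refine le_of_forall_pos_le_add fun ε hε => ?_
      obtain ⟨n, hn⟩ := exists_nat_one_div_lt hε
      obtain ⟨y, hy, hy2⟩ := h1 n
      rw [Metric.mem_ball, dist_comm] at hy2
      have := Metric.infDist_le_dist_of_mem (x := q) hy
      linarith
  rw [e]
  exact MeasurableSet.iInter fun n => measurable_hit h Metric.isOpen_ball

end Vale.Agent.P155.SW613
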