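import Vale.Agent.P155.SW613.RowI
import Vale.Agent.P155.SW613.Geo
import Vale.Agent.P155.SW12.Row
import Vale.Agent.P155.SW905.KKC

/-!
# P155 (SW), block (6b): the restriction property of the carpets, from the kernel
-/

namespace Vale.Agent.P155.SW613

open MeasureTheory Filter Topology TopologicalSpace ProbabilityTheory Set Vale.Agent.P155
  Vale.Agent.P155.Q1 Vale.Agent.P155.Uq Vale.Agent.P155.SWR V743.Cap V743.Ind

/-- almost sure properties of `f s` are almost sure properties for the law of `f` -/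
theorem ae_map_std {S T : Type*} [MeasurableSpace S] [StandardBorelSpace S] [Nonempty S]
    [MeasurableSpace T] [StandardBorelSpace T] {μ : Measure S} [IsProbabilityMeasure μ]
    {f : S → T} (hf : Measurable f) {P : T → Prop} (h : ∀ᵐ s ∂μ, P (f s)) :
    ∀ᵐ t ∂(μ.map f), P t := by
  set N : Set S := toMeasurable μ {s | ¬ P (f s)} with hN
  have hNm : MeasurableSet N := measurableSet_toMeasurable _ _
  have hN0 : μ N = 0 := by
    rw [hN, measure_toMeasurable]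
    exact h
  have hsub : ∀ s, s ∉ N → P (f s) := by
    intro s hs
    by_contra hn
    exact hs (subset_toMeasurable _ _ hn)
  have hcomp : (μ.map f) ⊗ₘ condDistrib (fun s => s) f μ = μ.map (fun s => (f s, s)) :=
    compProd_map_condDistrib aemeasurable_id
  have hprob : IsProbabilityMeasure (μ.map f) := Measure.isProbabilityMeasure_map hf.aemeasurable
  have hfm : Measurable (fun s => (f s, s)) := hf.prodMk measurable_id
  have hset : MeasurableSet {x : T × S | x.1 = f x.2 ∧ x.2 ∉ N} :=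
    (measurableSet_eq_fun measurable_fst (hf.comp measurable_snd)).inter
      (measurable_snd hNm).compl
  have h1 : ∀ᵐ x ∂(μ.map (fun s => (f s, s))), x.1 = f x.2 ∧ x.2 ∉ N := by
    rw [ae_map_iff hfm.aemeasurable hset]
    have h0 : ∀ᵐ s ∂μ, s ∉ N := measure_eq_zero_iff_ae_notMem.1 hN0
    filter_upwards [h0] with s hs
    exact ⟨rfl, hs⟩
  rw [← hcomp] at h1
  have h2 := Measure.ae_ae_of_ae_compProd h1
  filter_upwards [h2] with t ht
  obtain ⟨s, hs1, hs2⟩ := ht.exists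
  have hs3 : t = f s := hs1
  rw [hs3]
  exact hsub s hs2

/-- `KK` without and with the outer closure -/
theorem KK_eq_kk {Ω K : Set ℂ} {A : NonemptyCompacts ℂ} (hK : IsClosed K)
    (hfin : ∀ ε : ℝ, 0 < ε → {U | IsHole Ω (A : Set ℂ) U ∧ ε < Metric.diam U}.Finite)
    (hb : Bornology.IsBounded Ω) : KK Ω K (A : Set ℂ) = kk Ω K A := by
  have e : KK Ω K (A : Set ℂ) =
      K ∪ ⋃ U ∈ {U : Set ℂ | IsHole Ω A U ∧ (closure U ∩ K).Nonempty}, closure U := by
    unfold KK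
    congr 1
    ext z
    simp only [mem_sUnion, mem_ofPred_eq, mem_iUnion, exists_prop]
    constructor
    · rintro ⟨_, ⟨U, h1, h2, rfl⟩, hz⟩
      exact ⟨U, ⟨h1, h2⟩, hz⟩
    · rintro ⟨U, ⟨h1, h2⟩, hz⟩
      exact ⟨_, ⟨U, h1, h2, rfl⟩, hz⟩
  unfold kk
  rw [← e]
  exact (SW905.KK_closed hK hfin hb).closure_eq.symm

/-- the hypotheses of the row, from the kernel -/
theorem rhyp_of {Ω K B : Set ℂ} (ho : IsOpen Ω) (hb : Bornology.IsBounded Ω) (hne : Ω.Nonempty)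
    (hK : IsClosed K) (hKc : IsConnected K) (hKo : Ωᶜ ⊆ K) {μ : Measure (Sp Ω)}
    [IsProbabilityMeasure μ] (hs : ∀ᵐ s ∂μ, KK Ω K (s 1).1 = B ∧ Path Ω s)
    (h0 : ∀ φ, IsTest Bᶜ φ → ∫ s, wt (pr (s 1).2 φ) (greenEnergy (Ω \ (s 1).1) φ) ∂μ =
      Complex.exp (-greenEnergy Bᶜ φ / 2))
    (h1 : ∀ k : ℕ, 1 ≤ k → ∀ φ : ℂ → ℝ, IsTest Ω φ → ∀ Ψ : Past Ω k → ℝ, BM Ψ →
      ∫ s, (Ψ (past k s) : ℂ) * wt (pr (s (k + 1)).2 φ - pr (s k).2 φ)
          (greenEnergy (Ω \ (s (k + 1)).1) φ) ∂μ =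
        ∫ s, (Ψ (past k s) : ℂ) * Complex.exp (-greenEnergy (Ω \ (s k).1) φ / 2) ∂μ)
    {m : ℕ} {V : Fin m → Set ℂ} (hinj : Function.Injective V) (hV : ∀ i, IsHole Ω B (V i)) :
    RHyp Ω B μ V ∧ ∀ i, SimplyConnectedSpace (V i) := by
  have hall : ∀ s : Sp Ω, KK Ω K (s 1).1 = B → Path Ω s → Dat Ω K ∧ B = kk Ω K (s 1).1 ∧
      frontier Ω ⊆ ((s 1).1 : Set ℂ) := by
    intro s hs1 hs2
    have hfc : IsConnected (frontier Ω) := by
      rw [← hs2.zero.1]
      exact hs2.conn 0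
    refine ⟨⟨ho, hb, hne, hfc, hK, hKc, hKo⟩, ?_, ?_⟩
    · rw [← hs1]
      exact KK_eq_kk hK hs2.nice.fin hb
    · rw [← hs2.zero.1]
      exact (hs2.mono 0).1
  have hhole : ∀ s : Sp Ω, KK Ω K (s 1).1 = B → Path Ω s →
      ∀ W, IsHole Ω B W → IsHole Ω (KKc Ω K (s 1).1) W := by
    intro s hs1 hs2 W hW
    obtain ⟨hD, hB, -⟩ := hall s hs1 hs2
    have e : Ω \ (KKc Ω K (s 1).1 : Set ℂ) = Ω \ B := by
      rw [hD.compl_KKc, hB]
      ext z
      refine ⟨fun hz => ⟨?_, hz⟩, fun hz => hz.2⟩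
      by_contra hn
      exact hz (hD.off_kk hn)
    unfold IsHole
    rw [e]
    exact hW
  obtain ⟨s0, hs0, hs0'⟩ := hs.exists
  obtain ⟨hD, hB, hfrA⟩ := hall s0 hs0 hs0'
  have hBc : IsClosed B := by
    rw [hB]
    exact kk_closed
  have hBΩ : Bᶜ ⊆ Ω := by
    rw [hB]
    exact compl_subset_comm.1 hD.off_kk
  have hf := fun i => hD.facts (hhole s0 hs0 hs0' _ (hV i))
  have eB : Ω \ (KKc Ω K (s0 1).1 : Set ℂ) = Bᶜ := by
    rw [hD.compl_KKc, hB]
  refine ⟨⟨inferInstance, ho, hb, hBc, hBΩ, ?_, fun i => (hf i).1, fun i => (hf i).2.1, fun i => ?_,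
    fun i => ?_, fun i => (hf i).2.2.2.2.2.1, ?_, ?_, h0, h1⟩, fun i => ?_⟩
  · filter_upwards [hs] with s h
    exact h.2
  · rw [← eB]
    exact (hf i).2.2.1
  · rw [← eB]
    exact (hf i).2.2.2.2.2.2.2.2
  · intro i j hij
    rw [Set.disjoint_left]
    intro z hz hz'
    apply hij
    apply hinj
    obtain ⟨w, hw, e1⟩ := hV i
    obtain ⟨w', hw', e2⟩ := hV j
    rw [e1] at hz
    rw [e2] at hz'
    rw [e1, e2]
    exact (connectedComponentIn_eq hz).trans (connectedComponentIn_eq hz').symm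
  · filter_upwards [hs] with s h i
    obtain ⟨hD', -, hfr'⟩ := hall s h.1 h.2
    exact hD'.frontier_hole hfr' (hhole s h.1 h.2 _ (hV i))
  · exact NT34.Y.hsc Ω (KKc Ω K (s0 1).1) (V i) ho hb hD.conn_KKc hD.fr_KKc
      (hhole s0 hs0 hs0' _ (hV i))

/-- **(6b)** the restriction property of the carpets, from the kernel -/
theorem restr_of (hKS : KSTEP) : RESTR := by
  intro Ω ho hb hne hsc Θ mΘ P G H hP hG K hK hKc hKo
  obtain ⟨Q, hQ, hlaw⟩ := NT730Y.exists_canon ho hb hne hG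
  have hQp := hQ.prob
  obtain ⟨X, mX, ν, κ, b, hν, hκ, hbind, hy⟩ := hKS Ω ho hb hne hsc Q hQ K hK hKc hKo
  have hfm : Measurable (fun (s : Sp Ω) (k : ℕ) => (s k).1) := NT730Y.meas_fst
  refine ⟨X, mX, ν, κ.map (fun s k => (s k).1), b, hν, Kernel.IsMarkovKernel.map _ hfm, ?_, ?_⟩
  · rw [hlaw, ← hbind]
    exact Measure.map_comp _ _ hfm
  filter_upwards [hy] with y hy
  obtain ⟨hs, h0, h1⟩ := hy
  rw [Kernel.map_apply _ hfm]
  have hfam : ∀ (m : ℕ) (V : Fin m → Set ℂ), Function.Injective V → (∀ i, IsHole Ω (b y) (V i)) →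
      RHyp Ω (b y) (κ y) V ∧ ∀ i, SimplyConnectedSpace (V i) := fun m V hinj hV =>
    rhyp_of ho hb hne hK hKc hKo hs h0 h1 hinj hV
  refine ⟨?_, ?_, ?_⟩
  · refine ae_map_std hfm (P := fun s : SQ => KK Ω K (s 1 : Set ℂ) = b y) ?_
    filter_upwards [hs] with s h
    exact h.1
  · intro m V hinj hV
    refine ⟨fun i => (rs0_meas (V i)).aemeasurable, ?_⟩
    rw [indep_comp hfm (fun i => rs0_meas (V i))]
    rcases Nat.eq_zero_or_pos m with rfl | hm
    · exact iIndepFun.of_subsingleton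
    · obtain ⟨n, rfl⟩ : ∃ n, m = n + 1 := ⟨m - 1, by omega⟩
      obtain ⟨hR, hsc'⟩ := hfam (n + 1) V hinj hV
      obtain ⟨c, hc1, hc2⟩ := SW12.row_exists V hR.vo
        (fun i => hb.subset ((hR.vs i).trans hR.hBΩ)) (fun i => (hR.vc i).nonempty)
      refine row_indep (c := c) hR hc1 ?_ hsc'
      intro i j hij
      rw [tr_frontier, tr_frontier]
      exact hc2 i j hij
  · intro V hV Θ' mΘ' P' G' H' hP' hG'
    obtain ⟨hR, -⟩ := hfam 1 (fun _ => V) (Function.injective_of_subsingleton _) (fun _ => hV)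
    have hVo : IsOpen V := hR.vo 0
    have hVb : Bornology.IsBounded V := hb.subset ((hR.vs 0).trans hR.hBΩ)
    have hVne : V.Nonempty := (hR.vc 0).nonempty
    have h5 := NT730Y.uniq_law hVo hVb hVne (one_carp hR) hG'
    rw [Measure.map_map (rs0_meas V) hfm]
    exact h5

end Vale.Agent.P155.SW613
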