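import Vale.Agent.P155.SW613.RowG
import Vale.Agent.P155.NT814Y.SplAll
import Vale.Agent.P155.V743.Iter

/-!
# P155 (SW), block (6b): the carpets of the pieces, put in a row, are signed carpets
-/

namespace Vale.Agent.P155.SW613

open MeasureTheory Filter Topology TopologicalSpace Set Vale.Agent.P155 Vale.Agent.P155.Q1
  Vale.Agent.P155.Uq Vale.Agent.P155.SWR V743.Cap

/-- the carpet of the row, level `k` -/
noncomputable def rG {m : ℕ} (V : Fin m → Set ℂ) (c : Fin m → ℂ) (k : ℕ)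
    (A : NonemptyCompacts ℂ) : NonemptyCompacts ℂ :=
  if k = 0 then toNC (frontier (RW V c)) else toNC (⋃ i, tr (c i) ((A : Set ℂ) ∩ closure (V i)))

section meas

variable {m : ℕ} {V : Fin m → Set ℂ} {c : Fin m → ℂ}

theorem row_compact (A : NonemptyCompacts ℂ) :
    IsCompact (⋃ i, tr (c i) ((A : Set ℂ) ∩ closure (V i))) :=
  isCompact_iUnion fun _ => tr_compact (A.isCompact.inter_right isClosed_closure)

theorem row_meets {A : NonemptyCompacts ℂ} {q : ℂ} {r : ℝ}
    (h : (⋃ i, tr (c i) ((A : Set ℂ) ∩ closure (V i))).Nonempty) :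
    Metric.infDist q (⋃ i, tr (c i) ((A : Set ℂ) ∩ closure (V i))) ≤ r ↔
      ∃ i, ((A : Set ℂ) ∩ (closure (V i) ∩ Metric.closedBall (q - c i) r)).Nonempty := by
  constructor
  · intro h1
    obtain ⟨y, hy, hy2⟩ := (row_compact A).exists_infDist_eq_dist h q
    rw [hy2] at h1
    obtain ⟨i, hi⟩ := mem_iUnion.1 hy
    refine ⟨i, y - c i, hi.1, hi.2, ?_⟩
    rw [Metric.mem_closedBall, dist_comm, dist_sub_right]
    exact h1
  · rintro ⟨i, w, hw1, hw2, hw3⟩
    have h2 : w + c i ∈ ⋃ i, tr (c i) ((A : Set ℂ) ∩ closure (V i)) := by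
      refine mem_iUnion.2 ⟨i, ?_⟩
      show w + c i - c i ∈ (A : Set ℂ) ∩ closure (V i)
      rw [add_sub_cancel_right]
      exact ⟨hw1, hw2⟩
    refine (Metric.infDist_le_dist_of_mem h2).trans ?_
    rw [Metric.mem_closedBall, dist_comm] at hw3
    have e : dist q (w + c i) = dist (q - c i) w := by
      rw [← dist_sub_right q (w + c i) (c i), add_sub_cancel_right]
    rw [e]
    exact hw3

theorem measurable_row :
    Measurable (fun A : NonemptyCompacts ℂ => toNC (⋃ i, tr (c i) ((A : Set ℂ) ∩ closure (V i)))) := by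
  apply NT814Y.measurable_nc
  intro q r
  have hm : ∀ C : Set ℂ, IsClosed C →
      MeasurableSet {K : NonemptyCompacts ℂ | ((K : Set ℂ) ∩ C).Nonempty} := fun C hC =>
    (isClosed_meets hC).measurableSet
  set N : Set (NonemptyCompacts ℂ) := ⋃ i, {A | ((A : Set ℂ) ∩ closure (V i)).Nonempty} with hN
  have hNm : MeasurableSet N := MeasurableSet.iUnion fun i => hm _ isClosed_closure
  have hNiff : ∀ A : NonemptyCompacts ℂ, A ∈ N ↔
      (⋃ i, tr (c i) ((A : Set ℂ) ∩ closure (V i))).Nonempty := by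
    intro A
    rw [hN, mem_iUnion, nonempty_iUnion]
    refine exists_congr fun i => ⟨fun h => tr_nonempty h, fun ⟨z, hz⟩ => ⟨z - c i, hz⟩⟩
  have e : {A : NonemptyCompacts ℂ | Metric.infDist q
        ((toNC (⋃ i, tr (c i) ((A : Set ℂ) ∩ closure (V i))) : NonemptyCompacts ℂ) : Set ℂ) ≤ r} =
      (N ∩ ⋃ i, {A : NonemptyCompacts ℂ |
        ((A : Set ℂ) ∩ (closure (V i) ∩ Metric.closedBall (q - c i) r)).Nonempty}) ∪
      (Nᶜ ∩ {_A : NonemptyCompacts ℂ | Metric.infDist q ({0} : Set ℂ) ≤ r}) := by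
    ext A
    by_cases h : A ∈ N
    · have h' := (hNiff A).1 h
      simp only [mem_ofPred_eq, mem_union, mem_inter_iff, mem_compl_iff, h, true_and, not_true_eq_false,
        false_and, or_false, mem_iUnion]
      rw [coe_toNC (row_compact A) h']
      exact row_meets h'
    · have h' : ¬ (⋃ i, tr (c i) ((A : Set ℂ) ∩ closure (V i))).Nonempty :=
        fun h' => h ((hNiff A).2 h')
      simp only [mem_ofPred_eq, mem_union, mem_inter_iff, mem_compl_iff, h, false_and, not_false_eq_true,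
        true_and, false_or]
      rw [toNC_junk h']
  rw [e]
  exact (hNm.inter (MeasurableSet.iUnion fun i =>
    hm _ (isClosed_closure.inter Metric.isClosed_closedBall))).union
    (hNm.compl.inter (MeasurableSet.const _))

theorem measurable_rG (k : ℕ) : Measurable (rG V c k) := by
  unfold rG
  by_cases hk : k = 0
  · simp only [hk, if_true]
    exact measurable_const
  · simp only [hk, if_false]
    exact measurable_row

end meas

/-- the data of block (6b) for one value of `KK` -/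
structure RHyp (Ω B : Set ℂ) (μ : Measure (Sp Ω)) {m : ℕ} (V : Fin m → Set ℂ) : Prop where
  prob : IsProbabilityMeasure μ
  ho : IsOpen Ω
  hb : Bornology.IsBounded Ω
  hB : IsClosed B
  hBΩ : Bᶜ ⊆ Ω
  path : ∀ᵐ s ∂μ, Path Ω s
  vo : ∀ i, IsOpen (V i)
  vc : ∀ i, IsConnected (V i)
  vs : ∀ i, V i ⊆ Bᶜ
  vcl : ∀ i, IsOpen (Bᶜ \ V i)
  vf : ∀ i, IsConnected (frontier (V i))
  vd : ∀ i j, i ≠ j → Disjoint (V i) (V j)
  fr : ∀ᵐ s ∂μ, ∀ i, frontier (V i) ⊆ ((s 1).1 : Set ℂ)
  g0 : ∀ φ, IsTest Bᶜ φ →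
    ∫ s, wt (pr (s 1).2 φ) (greenEnergy (Ω \ (s 1).1) φ) ∂μ = Complex.exp (-greenEnergy Bᶜ φ / 2)
  g1 : ∀ k : ℕ, 1 ≤ k → ∀ φ : ℂ → ℝ, IsTest Ω φ → ∀ Ψ : Past Ω k → ℝ, BM Ψ →
    ∫ s, (Ψ (past k s) : ℂ) * wt (pr (s (k + 1)).2 φ - pr (s k).2 φ)
        (greenEnergy (Ω \ (s (k + 1)).1) φ) ∂μ =
      ∫ s, (Ψ (past k s) : ℂ) * Complex.exp (-greenEnergy (Ω \ (s k).1) φ / 2) ∂μ

section carp

variable {Ω B : Set ℂ} {μ : Measure (Sp Ω)} {n : ℕ} {V : Fin (n + 1) → Set ℂ}
  {c : Fin (n + 1) → ℂ}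

theorem path_le {s : Sp Ω} (h : Path Ω s) {j k : ℕ} (hjk : j ≤ k) :
    ((s j).1 : Set ℂ) ⊆ (s k).1 := by
  induction k, hjk using Nat.le_induction with
  | base => exact Subset.rfl
  | succ k _ ih => exact ih.trans (h.mono k).1

/-- deterministic facts about the row -/
theorem coe_rG_zero (h : RHyp Ω B μ V) (hd : RowD V c) (A : NonemptyCompacts ℂ) :
    (rG V c 0 A : Set ℂ) = frontier (RW V c) := by
  unfold rG
  rw [if_pos rfl]
  refine coe_toNC ?_ ?_
  · have hb : Bornology.IsBounded (RW V c) :=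
      RW_bdd fun i => h.hb.subset ((h.vs i).trans h.hBΩ)
    exact Metric.isCompact_of_isClosed_isBounded isClosed_frontier
      (hb.closure.subset frontier_subset_closure)
  · rw [RW_frontier h.vo hd]
    obtain ⟨z, hz⟩ := tr_nonempty (c := c 0) (h.vf 0).nonempty
    exact ⟨z, mem_iUnion.2 ⟨0, hz⟩⟩

theorem row_ne (h : RHyp Ω B μ V) {A : NonemptyCompacts ℂ}
    (hA : ∀ i, frontier (V i) ⊆ (A : Set ℂ)) :
    (⋃ i, tr (c i) ((A : Set ℂ) ∩ closure (V i))).Nonempty := by
  obtain ⟨z, hz⟩ := (h.vf 0).nonempty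
  obtain ⟨w, hw⟩ := tr_nonempty (c := c 0) (A := (A : Set ℂ) ∩ closure (V 0))
    ⟨z, hA 0 hz, frontier_subset_closure hz⟩
  exact ⟨w, mem_iUnion.2 ⟨0, hw⟩⟩

theorem coe_rG (h : RHyp Ω B μ V) {k : ℕ} (hk : 1 ≤ k) {A : NonemptyCompacts ℂ}
    (hA : ∀ i, frontier (V i) ⊆ (A : Set ℂ)) :
    (rG V c k A : Set ℂ) = ⋃ i, tr (c i) ((A : Set ℂ) ∩ closure (V i)) := by
  unfold rG
  rw [if_neg (by omega)]
  exact coe_toNC (row_compact A) (row_ne h hA)

/-- the piece off the carpet -/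
theorem piece_diff (h : RHyp Ω B μ V) (hd : RowD V c) {k : ℕ} (hk : 1 ≤ k)
    {A : NonemptyCompacts ℂ} (hA : ∀ i, frontier (V i) ⊆ (A : Set ℂ)) (i : Fin (n + 1)) :
    tr (c i) (V i) \ (rG V c k A : Set ℂ) = tr (c i) (V i \ (A : Set ℂ)) := by
  rw [coe_rG h hk hA]
  ext w
  constructor
  · rintro ⟨h1, h2⟩
    exact ⟨h1, fun h3 => h2 (mem_iUnion.2 ⟨i, h3, subset_closure h1⟩)⟩
  · rintro ⟨h1, h2⟩
    refine ⟨h1, fun h3 => ?_⟩
    obtain ⟨j, hj⟩ := mem_iUnion.1 h3
    by_cases hji : i = j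
    · subst hji
      exact h2 hj.1
    · exact Set.disjoint_left.1 (disj_closure h.vo hd hji) h1 hj.2

theorem energy_row (h : RHyp Ω B μ V) (hd : RowD V c) {k : ℕ} (hk : 1 ≤ k)
    {A : NonemptyCompacts ℂ} (hA : ∀ i, frontier (V i) ⊆ (A : Set ℂ)) {φ : ℂ → ℝ}
    (hφ : IsTest (RW V c) φ) :
    greenEnergy (RW V c \ (rG V c k A : Set ℂ)) φ = greenEnergy (Ω \ (A : Set ℂ)) (tf V c φ) := by
  have hVΩ : (⋃ i, V i) ⊆ Ω := iUnion_subset fun i => (h.vs i).trans h.hBΩ
  refine green_row (K := (A : Set ℂ)) (R := Ω \ closure (⋃ i, V i)) h.vo hd h.vd hφ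
    (h.ho.sdiff isClosed_closure) ?_ ?_ ?_ (piece_diff h hd hk hA)
  · exact Set.disjoint_left.2 fun z hz hz' => hz'.2 (subset_closure hz)
  · exact h.hb.subset (union_subset hVΩ sdiff_subset)
  · ext z
    constructor
    · rintro ⟨h1 | h1, h2⟩
      · exact ⟨hVΩ h1, h2⟩
      · exact ⟨h1.1, h2⟩
    · rintro ⟨h1, h2⟩
      refine ⟨?_, h2⟩
      by_cases hz : z ∈ ⋃ i, V i
      · exact Or.inl hz
      · refine Or.inr ⟨h1, fun hzc => h2 ?_⟩
        rw [closure_iUnion_of_finite] at hzc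
        obtain ⟨i, hi⟩ := mem_iUnion.1 hzc
        apply hA i
        rw [(h.vo i).frontier_eq]
        exact ⟨hi, fun hzi => hz (mem_iUnion.2 ⟨i, hzi⟩)⟩

theorem energy_zero (h : RHyp Ω B μ V) (hd : RowD V c) {φ : ℂ → ℝ}
    (hφ : IsTest (RW V c) φ) (A : NonemptyCompacts ℂ) :
    greenEnergy (RW V c \ (rG V c 0 A : Set ℂ)) φ = greenEnergy Bᶜ (tf V c φ) := by
  rw [coe_rG_zero h hd A]
  have hVB : (⋃ i, V i) ⊆ Bᶜ := iUnion_subset h.vs
  have hR : IsOpen (Bᶜ \ ⋃ i, V i) := by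
    have e : Bᶜ \ ⋃ i, V i = ⋂ i, (Bᶜ \ V i) := by
      ext z
      simp only [Set.mem_sdiff, mem_iUnion, not_exists, mem_iInter]
      exact ⟨fun h i => ⟨h.1, h.2 i⟩, fun h => ⟨(h 0).1, fun i => (h i).2⟩⟩
    rw [e]
    exact isOpen_iInter_of_finite h.vcl
  refine green_row (K := ∅) (R := Bᶜ \ ⋃ i, V i) h.vo hd h.vd hφ hR disjoint_sdiff_right ?_ ?_ ?_
  · exact h.hb.subset (union_subset (hVB.trans h.hBΩ) (sdiff_subset.trans h.hBΩ))
  · rw [sdiff_empty]
    exact union_sdiff_cancel hVB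
  · intro i
    rw [sdiff_empty]
    refine Subset.antisymm sdiff_subset fun w hw => ⟨hw, fun hw2 => ?_⟩
    rw [(RW_open h.vo).frontier_eq] at hw2
    exact hw2.2 (mem_iUnion.2 ⟨i, hw⟩)

/-- a preconnected part of the row which meets a piece lies in it -/
theorem piece_conn (ho : ∀ i, IsOpen (V i)) (hd : RowD V c) {S : Set ℂ} (hS : IsPreconnected S)
    (hSR : S ⊆ RW V c) {i : Fin (n + 1)} (hi : (S ∩ tr (c i) (V i)).Nonempty) :
    S ⊆ tr (c i) (V i) := by
  have h1 : IsOpen (⋃ j ∈ {j | j ≠ i}, tr (c j) (V j)) :=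
    isOpen_biUnion fun j _ => tr_open (ho j)
  have h2 : Disjoint (tr (c i) (V i)) (⋃ j ∈ {j | j ≠ i}, tr (c j) (V j)) := by
    rw [Set.disjoint_iUnion₂_right]
    exact fun j hj => hd i j (Ne.symm hj)
  refine hS.subset_left_of_subset_union (tr_open (ho i)) h1 h2 ?_ hi
  refine hSR.trans fun w hw => ?_
  obtain ⟨j, hj⟩ := mem_iUnion.1 hw
  by_cases hji : j = i
  · subst hji
    exact Or.inl hj
  · exact Or.inr (mem_biUnion (show j ∈ {j | j ≠ i} from hji) hj)

/-- the test function on `Ω`, for a test function in one piece -/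
theorem tf_one (hd : RowD V c) {φ : ℂ → ℝ} {i : Fin (n + 1)} (hφ : ∀ z, φ z ≠ 0 → z ∈ tr (c i) (V i)) :
    tf V c φ = fun z => φ (z + c i) := by
  funext z
  unfold tf
  rw [Finset.sum_eq_single i]
  · by_cases hz : z ∈ V i
    · exact indicator_of_mem hz _
    · rw [indicator_of_notMem hz]
      by_contra hne
      apply hz
      have : z + c i - c i ∈ V i := hφ _ (Ne.symm hne)
      rwa [add_sub_cancel_right] at this
  · intro j _ hji
    by_cases hz : z ∈ V j
    · rw [indicator_of_mem hz]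
      by_contra hne
      have h1 := hφ _ hne
      have h2 : z + c j ∈ tr (c j) (V j) := by
        show z + c j - c j ∈ V j
        rwa [add_sub_cancel_right]
      exact Set.disjoint_left.1 (hd j i hji) h2 h1
    · exact indicator_of_notMem hz _
  · intro h
    exact absurd (Finset.mem_univ i) h

/-- the density of the height of the row -/
noncomputable def rg (V : Fin (n + 1) → Set ℂ) (c : Fin (n + 1) → ℂ) (f : ℂ → ℝ) : ℂ → ℝ :=
  fun z => ∑ i, (tr (c i) (V i)).indicator (fun z => f (z - c i)) z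

theorem rg_le (hd : RowD V c) {f : ℂ → ℝ} {C : ℝ} (hC : 0 ≤ C) (hf : ∀ z, |f z| ≤ C) (z : ℂ) :
    |rg V c f z| ≤ C := by
  unfold rg
  by_cases h : ∃ i, z ∈ tr (c i) (V i)
  · obtain ⟨i, hi⟩ := h
    rw [Finset.sum_eq_single i, indicator_of_mem hi]
    · exact hf _
    · intro j _ hji
      exact indicator_of_notMem (fun h => Set.disjoint_left.1 (hd j i hji) h hi) _
    · intro h
      exact absurd (Finset.mem_univ i) h
  · push Not at h
    rw [Finset.sum_eq_zero fun i _ => indicator_of_notMem (h i) _]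
    simpa using hC

theorem rg_meas (ho : ∀ i, IsOpen (V i)) {f : ℂ → ℝ} (hf : Measurable f) :
    Measurable (rg V c f) := by
  unfold rg
  refine Finset.measurable_sum _ fun i _ => ?_
  exact (hf.comp (measurable_id.sub_const _)).indicator (tr_open (ho i)).measurableSet

theorem rg_int (ho : ∀ i, IsOpen (V i)) (hd : RowD V c) {f : ℂ → ℝ} (hf : Measurable f) {C : ℝ}
    (hC : ∀ z, |f z| ≤ C) {φ : ℂ → ℝ} (hφ : IsTest (RW V c) φ) :
    ∫ z, f z * tf V c φ z = ∫ z, rg V c f z * φ z := by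
  have hpi := test_piece ho hd hφ
  have hi1 : ∀ i, Integrable (fun z => f z * (V i).indicator (fun z => φ (z + c i)) z) := fun i =>
    NT814Y.int_mul hf hC (hpi i)
  have e1 : ∫ z, f z * tf V c φ z = ∑ i, ∫ z, f z * (V i).indicator (fun z => φ (z + c i)) z := by
    rw [← integral_finsetSum _ fun i _ => hi1 i]
    congr 1
    funext z
    unfold tf
    rw [Finset.mul_sum]
  have e3 : ∀ i (z : ℂ), (tr (c i) (V i)).indicator (fun z => f (z - c i)) (z + c i) * φ (z + c i) =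
      f z * (V i).indicator (fun z => φ (z + c i)) z := by
    intro i z
    by_cases hz : z ∈ V i
    · have hz' : z + c i ∈ tr (c i) (V i) := by
        show z + c i - c i ∈ V i
        rwa [add_sub_cancel_right]
      rw [indicator_of_mem hz, indicator_of_mem hz', add_sub_cancel_right]
    · have hz' : z + c i ∉ tr (c i) (V i) := by
        intro h
        have : z + c i - c i ∈ V i := h
        rw [add_sub_cancel_right] at this
        exact hz this
      rw [indicator_of_notMem hz, indicator_of_notMem hz', zero_mul, mul_zero]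
  have e2 : ∫ z, rg V c f z * φ z =
      ∑ i, ∫ z, (tr (c i) (V i)).indicator (fun z => f (z - c i)) z * φ z := by
    rw [← integral_finsetSum]
    · congr 1
      funext z
      unfold rg
      rw [Finset.sum_mul]
    · intro i _
      have h1 := (hi1 i).comp_sub_right (c i)
      refine h1.congr (ae_of_all _ fun z => ?_)
      have h2 := e3 i (z - c i)
      simp only [sub_add_cancel] at h2
      exact h2.symm
  rw [e1, e2]
  refine Finset.sum_congr rfl fun i _ => ?_
  rw [← integral_tr (c i) (fun z => (tr (c i) (V i)).indicator (fun z => f (z - c i)) z * φ z)]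
  congr 1
  funext z
  exact (e3 i z).symm

end carp

end Vale.Agent.P155.SW613
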