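import Vale.Agent.P155.SW613.RowC

/-!
# P155 (SW), block (6b): the carpets of the row are signed carpets
-/

namespace Vale.Agent.P155.SW613

open MeasureTheory Filter Topology TopologicalSpace Set Vale.Agent.P155 Vale.Agent.P155.Q1
  Vale.Agent.P155.Uq Vale.Agent.P155.SWR V743.Cap

section carp

variable {Ω B : Set ℂ} {μ : Measure (Sp Ω)} {n : ℕ} {V : Fin (n + 1) → Set ℂ}
  {c : Fin (n + 1) → ℂ}

theorem test_Ω (h : RHyp Ω B μ V) (hd : RowD V c) {φ : ℂ → ℝ} (hφ : IsTest (RW V c) φ) :
    IsTest Ω (tf V c φ) := by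
  obtain ⟨h1, h2, h3⟩ := test_tf h.vo hd hφ
  exact ⟨h1, h2, h3.trans (iUnion_subset fun i => (h.vs i).trans h.hBΩ)⟩

theorem test_B (h : RHyp Ω B μ V) (hd : RowD V c) {φ : ℂ → ℝ} (hφ : IsTest (RW V c) φ) :
    IsTest Bᶜ (tf V c φ) := by
  obtain ⟨h1, h2, h3⟩ := test_tf h.vo hd hφ
  exact ⟨h1, h2, h3.trans (iUnion_subset h.vs)⟩

theorem wt_norm {a e : ℝ} (he : 0 ≤ e) : ‖wt a e‖ ≤ 1 := by
  have := NT730Y.exp1_le (a := a) he
  exact this

/-- **the carpets of the row are signed carpets** -/
theorem row_carp (h : RHyp Ω B μ V) (hd : RowD V c) (hl : RowL V c) :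
    IsSignedCarpets μ (RW V c) (fun k s => rG V c k (s k).1)
      (fun k s φ => pr (s k).2 (tf V c φ)) := by
  have hprob := h.prob
  have hfr : ∀ᵐ s ∂μ, ∀ k, 1 ≤ k → ∀ i, frontier (V i) ⊆ ((s k).1 : Set ℂ) := by
    filter_upwards [h.fr, h.path] with s h1 h2 k hk i
    exact (h1 i).trans (path_le h2 hk)
  have hsm : ∀ k, Measurable (fun s : Sp Ω => (s k).1) := fun k =>
    measurable_fst.comp (measurable_pi_apply k)
  have hsm2 : ∀ k, Measurable (fun s : Sp Ω => (s k).2) := fun k =>
    measurable_snd.comp (measurable_pi_apply k)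
  have hbR : Bornology.IsBounded (RW V c) := RW_bdd fun i => h.hb.subset ((h.vs i).trans h.hBΩ)
  refine ⟨?_, ?_, ?_, ?_, ?_, ?_, ?_, ?_⟩
  · -- zero
    filter_upwards [h.path] with s hs
    refine ⟨coe_rG_zero h hd _, fun φ hφ => ?_⟩
    rw [hs.zero.2]
    exact U613.pr_zero (test_Ω h hd hφ)
  · -- rep
    filter_upwards [h.path] with s hp k
    have hs := hp.bdd k
    set f := (s k).2 with hf
    have hfm := Lp.aestronglyMeasurable f
    set f' : ℂ → ℝ := hfm.mk f with hf'
    have hf'm : Measurable f' := hfm.stronglyMeasurable_mk.measurable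
    have hk : (0 : ℝ) ≤ k := Nat.cast_nonneg k
    set f2 : ℂ → ℝ := fun z => max (-(k : ℝ)) (min k (f' z)) with hf2
    have hf2m : Measurable f2 := measurable_const.max (measurable_const.min hf'm)
    have hf2b : ∀ z, |f2 z| ≤ k := by
      intro z
      rw [abs_le]
      exact ⟨le_max_left _ _, max_le (by linarith) (min_le_left _ _)⟩
    refine ⟨rg V c f2, rg_meas h.vo hf2m, rg_le hd hk hf2b, fun φ hφ => ?_⟩
    rw [← rg_int h.vo hd hf2m hf2b hφ,
      ← U613.integral_test_eq h.ho.measurableSet subset_rfl (test_Ω h hd hφ), pr]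
    apply integral_congr_ae
    filter_upwards [hs, hfm.ae_eq_mk] with z hz1 hz2
    have hz4 : f' z = f z := hz2.symm
    have hz3 := abs_le.1 hz1
    rw [hf2]
    simp only [hz4]
    rw [min_eq_right hz3.2, max_eq_right hz3.1]
  · -- mono
    filter_upwards [h.path, hfr] with s hs hf k
    have hcl : ∀ k, 1 ≤ k → (rG V c k (s k).1 : Set ℂ) ⊆ closure (RW V c) := by
      intro k hk
      rw [coe_rG h hk (hf k hk), RW_closure]
      exact iUnion_mono fun i => tr_mono inter_subset_right
    rcases Nat.eq_zero_or_pos k with rfl | hk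
    · show (rG V c 0 (s 0).1 : Set ℂ) ⊆ rG V c 1 (s 1).1 ∧ (rG V c 0 (s 0).1 : Set ℂ) ⊆ _
      rw [coe_rG_zero h hd, coe_rG h le_rfl (hf 1 le_rfl)]
      refine ⟨?_, frontier_subset_closure⟩
      rw [RW_frontier h.vo hd]
      exact iUnion_mono fun i => tr_mono fun z hz => ⟨hf 1 le_rfl i hz, frontier_subset_closure hz⟩
    · refine ⟨?_, hcl k hk⟩
      show (rG V c k (s k).1 : Set ℂ) ⊆ rG V c (k + 1) (s (k + 1)).1
      rw [coe_rG h hk (hf k hk), coe_rG h (by omega) (hf (k + 1) (by omega))]
      exact iUnion_mono fun i => tr_mono (inter_subset_inter_left _ (hs.mono k).1)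
  · -- conn
    filter_upwards [h.path, hfr] with s hs hf k
    show IsConnected (rG V c k (s k).1 : Set ℂ)
    rcases Nat.eq_zero_or_pos k with rfl | hk
    · rw [coe_rG_zero h hd, RW_frontier h.vo hd]
      exact row_conn (fun i => tr_conn (h.vf i)) hl
    · rw [coe_rG h hk (hf k hk)]
      refine row_conn (fun i => tr_conn ?_) fun i j hij => ?_
      · exact NT814Y.conn_cut (h.vo i) (h.vf i) (hs.conn k) (s k).1.isCompact.isClosed (hf k hk i)
      · obtain ⟨z, hz1, hz2⟩ := hl i j hij
        exact ⟨z, ⟨hf k hk i hz1, frontier_subset_closure hz1⟩,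
          ⟨hf k hk j hz2, frontier_subset_closure hz2⟩⟩
  · -- null
    filter_upwards [h.path, hfr] with s hs hf k
    show volume ((rG V c k (s k).1 : Set ℂ) ∩ RW V c) = 0
    rcases Nat.eq_zero_or_pos k with rfl | hk
    · rw [coe_rG_zero h hd]
      have e : frontier (RW V c) ∩ RW V c = ∅ := by
        rw [(RW_open h.vo).frontier_eq]
        ext z
        simp only [mem_inter_iff, Set.mem_sdiff, mem_empty_iff_false, iff_false, not_and]
        exact fun h1 h2 => h1.2 h2
      rw [e, measure_empty]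
    · rw [coe_rG h hk (hf k hk)]
      have hsub : (⋃ i, tr (c i) (((s k).1 : Set ℂ) ∩ closure (V i))) ∩ RW V c ⊆
          ⋃ i, tr (c i) (((s k).1 : Set ℂ) ∩ V i) := by
        rintro z ⟨h1, h2⟩
        obtain ⟨i, hi⟩ := mem_iUnion.1 h1
        obtain ⟨j, hj⟩ := mem_iUnion.1 h2
        by_cases hji : j = i
        · subst hji
          exact mem_iUnion.2 ⟨j, hi.1, hj⟩
        · exact absurd hi.2 (Set.disjoint_left.1 (disj_closure h.vo hd hji) hj)
      refine measure_mono_null hsub (measure_iUnion_null fun i => ?_)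
      rw [tr_volume]
      exact measure_mono_null (inter_subset_inter_right _ ((h.vs i).trans h.hBΩ)) (hs.null k)
  · -- sign
    filter_upwards [h.path, hfr] with s hs hf k z r hr hzV hdis
    have hzm : z ∈ Metric.closedBall z r := Metric.mem_closedBall_self hr.le
    obtain ⟨i, hi⟩ := mem_iUnion.1 (hzV hzm)
    have hsub : Metric.closedBall z r ⊆ tr (c i) (V i) :=
      piece_conn h.vo hd (convex_closedBall z r).isPreconnected hzV ⟨z, hzm, hi⟩
    have hmem : ∀ w, w ∈ Metric.closedBall (z - c i) r → w + c i ∈ Metric.closedBall z r := by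
      intro w hw
      rw [Metric.mem_closedBall, dist_eq_norm] at hw ⊢
      have e : w + c i - z = w - (z - c i) := by ring
      rwa [e]
    have hV : Metric.closedBall (z - c i) r ⊆ V i := by
      intro w hw
      have : w + c i - c i ∈ V i := hsub (hmem w hw)
      rwa [add_sub_cancel_right] at this
    have hVΩ : Metric.closedBall (z - c i) r ⊆ Ω := hV.trans ((h.vs i).trans h.hBΩ)
    have hk : 1 ≤ k + 1 := by omega
    rw [coe_rG h hk (hf (k + 1) hk)] at hdis
    obtain ⟨t, ht, h1⟩ := hs.sign k (z - c i) r hr hVΩ (Set.disjoint_left.2 fun w hw hw' => by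
      refine Set.disjoint_left.1 hdis (hmem w hw) (mem_iUnion.2 ⟨i, ?_⟩)
      show w + c i - c i ∈ ((s (k + 1)).1 : Set ℂ) ∩ closure (V i)
      rw [add_sub_cancel_right]
      exact ⟨hw', subset_closure (hV hw)⟩)
    refine ⟨t, ht, fun φ hφ => ?_⟩
    have hφtr : IsTest (tr (c i) (Metric.ball (z - c i) r)) φ := by
      refine ⟨hφ.1, hφ.2.1, hφ.2.2.trans fun w hw => ?_⟩
      show w - c i ∈ Metric.ball (z - c i) r
      rw [Metric.mem_ball, dist_sub_right]
      exact hw
    have hφ2 : IsTest (Metric.ball (z - c i) r) (fun w => φ (w + c i)) := test_tr hφtr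
    have htf : tf V c φ = fun w => φ (w + c i) := by
      apply tf_one hd
      intro w hw
      exact hsub (Metric.ball_subset_closedBall (hφ.2.2 (subset_tsupport φ hw)))
    have hφO : IsTest Ω (fun w => φ (w + c i)) :=
      ⟨hφ2.1, hφ2.2.1, hφ2.2.2.trans (Metric.ball_subset_closedBall.trans hVΩ)⟩
    show pr (s (k + 1)).2 (tf V c φ) - pr (s k).2 (tf V c φ) = _
    rw [htf, ← U613.pr_sub _ _ hφO]
    have h3 : ∀ᵐ w ∂(volume.restrict Ω : Measure ℂ), w ∈ Metric.ball (z - c i) r →
        ((s (k + 1)).2 - (s k).2 : Fld Ω) w = t := by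
      filter_upwards [h1, Lp.coeFn_sub (s (k + 1)).2 (s k).2] with w hw hw2 hw3
      rw [hw2]
      exact hw hw3
    rw [U613.pr_of_eq_const h.ho.measurableSet (Metric.ball_subset_closedBall.trans hVΩ) h3 hφ2,
      integral_tr (c i) φ]
  · -- meas
    intro k
    refine ⟨(measurable_rG k).comp (hsm k), fun φ hφ => ⟨?_, ?_⟩⟩
    · exact (U613.measurable_pr (test_Ω h hd hφ)).comp (hsm2 k)
    · exact (P155.U.measurable_green hbR hφ).comp ((measurable_rG k).comp (hsm k))
  · -- gff
    intro k m χ φ hχ hφ F hF hFb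
    have hφΩ := test_Ω h hd hφ
    rcases Nat.eq_zero_or_pos k with rfl | hk
    · -- level zero
      set F0 : ℝ := F (fun _ => toNC (frontier (RW V c)), fun _ _ => 0) with hF0
      have hFe : ∀ᵐ s ∂μ, F (fun j : Fin 1 => rG V c j (s j).1,
          fun (j : Fin 1) i => pr (s j).2 (tf V c (χ i))) = F0 := by
        filter_upwards [h.path] with s hs
        rw [hF0]
        congr 1
        refine Prod.ext ?_ ?_
        · funext j
          have hj : (j : ℕ) = 0 := by omega
          show rG V c (j : ℕ) (s (j : ℕ)).1 = _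
          rw [hj]
          unfold rG
          rw [if_pos rfl]
        · funext j i
          have hj : (j : ℕ) = 0 := by omega
          show pr (s (j : ℕ)).2 (tf V c (χ i)) = 0
          rw [hj, hs.zero.2]
          exact U613.pr_zero (test_Ω h hd (hχ i))
      have h0 := h.g0 _ (test_B h hd hφ)
      have e1 : ∫ s, (F (fun j : Fin (0 + 1) => rG V c j (s j).1,
            fun (j : Fin (0 + 1)) i => pr (s j).2 (tf V c (χ i))) : ℂ) *
          Complex.exp (Complex.I * Real.sqrt (Real.pi / 2) *
            (pr (s (0 + 1)).2 (tf V c φ) - pr (s 0).2 (tf V c φ)) -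
          greenEnergy (RW V c \ (rG V c (0 + 1) (s (0 + 1)).1 : Set ℂ)) φ / 2) ∂μ =
          ∫ s, (F0 : ℂ) * wt (pr (s 1).2 (tf V c φ))
            (greenEnergy (Ω \ (s 1).1) (tf V c φ)) ∂μ := by
        apply integral_congr_ae
        filter_upwards [hFe, h.path, hfr] with s h1 h2 h3
        have h4 : pr (s 0).2 (tf V c φ) = 0 := by
          rw [h2.zero.2]
          exact U613.pr_zero hφΩ
        rw [h1, h4, energy_row h hd (by omega) (h3 (0 + 1) (by omega)) hφ]
        unfold wt
        simp
      have e2 : ∫ s, (F (fun j : Fin (0 + 1) => rG V c j (s j).1,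
            fun (j : Fin (0 + 1)) i => pr (s j).2 (tf V c (χ i))) : ℂ) *
          Complex.exp (-greenEnergy (RW V c \ (rG V c 0 (s 0).1 : Set ℂ)) φ / 2) ∂μ =
          ∫ _s, (F0 : ℂ) * Complex.exp (-greenEnergy Bᶜ (tf V c φ) / 2) ∂μ := by
        apply integral_congr_ae
        filter_upwards [hFe] with s h1
        rw [h1, energy_zero h hd hφ]
      refine e1.trans (Eq.trans ?_ e2.symm)
      rw [integral_const_mul, h0, integral_const]
      simp
    · -- higher levels
      set Ψ : Past Ω k → ℝ := fun y => F (fun j => rG V c j (y j).1,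
        fun j i => pr (y j).2 (tf V c (χ i))) with hΨ
      have hΨB : BM Ψ := by
        obtain ⟨C, hC⟩ := hFb
        refine ⟨hF.measurable.comp (Measurable.prodMk ?_ ?_), C, fun s => hC _⟩
        · exact measurable_pi_lambda _ fun j => (measurable_rG _).comp
            (measurable_fst.comp (measurable_pi_apply j))
        · exact measurable_pi_lambda _ fun j => measurable_pi_lambda _ fun i =>
            (U613.measurable_pr (test_Ω h hd (hχ i))).comp
              (measurable_snd.comp (measurable_pi_apply j))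
      have hg := h.g1 k hk _ hφΩ Ψ hΨB
      refine Eq.trans (integral_congr_ae ?_) (hg.trans (integral_congr_ae ?_))
      · filter_upwards [hfr] with s h3
        show _ * Complex.exp (_ - (greenEnergy
          (RW V c \ (rG V c (k + 1) (s (k + 1)).1 : Set ℂ)) φ : ℂ) / 2) = _
        rw [energy_row h hd (by omega) (h3 (k + 1) (by omega)) hφ]
        unfold wt
        push_cast
        rfl
      · filter_upwards [hfr] with s h3
        show _ = _ * Complex.exp (-(greenEnergy
          (RW V c \ (rG V c k (s k).1 : Set ℂ)) φ : ℂ) / 2)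
        rw [energy_row h hd hk (h3 k hk) hφ]
        rfl

end carp

end Vale.Agent.P155.SW613
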