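import Vale.Agent.P155.SW801.Defs
import Vale.Agent.P155.NT814Y.Cut

/-!
# P155 (SW), block (6b): translating pieces into a row: geometry and energies
-/

namespace Vale.Agent.P155.SW613

open MeasureTheory Filter Topology TopologicalSpace Set Vale.Agent.P155 Vale.Agent.P155.Q1

/-- the translate of `A` by `c` -/
def tr (c : ℂ) (A : Set ℂ) : Set ℂ := {z | z - c ∈ A}

theorem tr_eq (c : ℂ) (A : Set ℂ) : tr c A = (Homeomorph.subRight c) ⁻¹' A := rfl

theorem tr_open {c : ℂ} {A : Set ℂ} (h : IsOpen A) : IsOpen (tr c A) := by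
  rw [tr_eq]
  exact h.preimage (Homeomorph.subRight c).continuous

theorem tr_closed {c : ℂ} {A : Set ℂ} (h : IsClosed A) : IsClosed (tr c A) := by
  rw [tr_eq]
  exact h.preimage (Homeomorph.subRight c).continuous

theorem tr_image (c : ℂ) (A : Set ℂ) : tr c A = (fun z => z + c) '' A := by
  ext z
  constructor
  · intro h
    exact ⟨z - c, h, by ring⟩
  · rintro ⟨w, hw, rfl⟩
    show w + c - c ∈ A
    rwa [add_sub_cancel_right]

theorem tr_compact {c : ℂ} {A : Set ℂ} (h : IsCompact A) : IsCompact (tr c A) := by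
  rw [tr_image]
  exact h.image (by fun_prop)

theorem tr_conn {c : ℂ} {A : Set ℂ} (h : IsConnected A) : IsConnected (tr c A) := by
  rw [tr_image]
  exact h.image _ (by fun_prop)

theorem tr_bdd {c : ℂ} {A : Set ℂ} (h : Bornology.IsBounded A) : Bornology.IsBounded (tr c A) := by
  obtain ⟨r, hr⟩ := h.subset_closedBall 0
  refine (Metric.isBounded_closedBall (x := c) (r := r)).subset fun z hz => ?_
  have h1 := hr hz
  rw [Metric.mem_closedBall, dist_zero_right] at h1
  rwa [Metric.mem_closedBall, dist_eq_norm]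

theorem tr_closure (c : ℂ) (A : Set ℂ) : tr c (closure A) = closure (tr c A) := by
  rw [tr_eq, tr_eq]
  exact (Homeomorph.subRight c).preimage_closure A

theorem tr_frontier (c : ℂ) (A : Set ℂ) : tr c (frontier A) = frontier (tr c A) := by
  rw [tr_eq, tr_eq]
  exact (Homeomorph.subRight c).preimage_frontier A

theorem tr_mono {c : ℂ} {A B : Set ℂ} (h : A ⊆ B) : tr c A ⊆ tr c B := fun _ hz => h hz

theorem tr_inter (c : ℂ) (A B : Set ℂ) : tr c (A ∩ B) = tr c A ∩ tr c B := rfl

theorem tr_diff (c : ℂ) (A B : Set ℂ) : tr c (A \ B) = tr c A \ tr c B := rfl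

theorem tr_zero (A : Set ℂ) : tr 0 A = A := by
  ext z
  simp [tr]

theorem tr_tr (c : ℂ) (A : Set ℂ) : tr (-c) (tr c A) = A := by
  ext z
  simp [tr]

theorem tr_volume (c : ℂ) (A : Set ℂ) : volume (tr c A) = volume A := by
  have h := measure_preimage_add_right (volume : Measure ℂ) (-c) A
  have e : tr c A = (fun h => h + -c) ⁻¹' A := by
    ext z
    show z - c ∈ A ↔ z + -c ∈ A
    rw [sub_eq_add_neg]
  rw [e, h]

theorem tr_nonempty {c : ℂ} {A : Set ℂ} (h : A.Nonempty) : (tr c A).Nonempty := by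
  rw [tr_image]
  exact h.image _

/-- test functions and translations -/
theorem test_tr {c : ℂ} {A : Set ℂ} {φ : ℂ → ℝ} (h : IsTest (tr c A) φ) :
    IsTest A (fun z => φ (z + c)) := by
  have hsup : tsupport (fun z => φ (z + c)) ⊆ tr (-c) (tsupport φ) := by
    refine closure_minimal (fun z hz => ?_) (tr_closed (isClosed_tsupport _))
    show z - -c ∈ tsupport φ
    rw [sub_neg_eq_add]
    exact subset_tsupport φ hz
  refine ⟨h.1.comp (by fun_prop), ?_, ?_⟩
  · exact (tr_compact h.2.1).of_isClosed_subset (isClosed_tsupport _) hsup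
  · refine hsup.trans fun z hz => ?_
    have h1 : z - -c ∈ tsupport φ := hz
    have h2 : z - -c - c ∈ A := h.2.2 h1
    rwa [sub_neg_eq_add, add_sub_cancel_right] at h2

theorem test_tr' {c : ℂ} {A : Set ℂ} {φ : ℂ → ℝ} (h : IsTest A φ) :
    IsTest (tr c A) (fun z => φ (z - c)) := by
  have h1 : IsTest (tr (-c) (tr c A)) φ := by rwa [tr_tr]
  have h2 := test_tr h1
  simpa [sub_eq_add_neg] using h2

theorem integral_tr (c : ℂ) (f : ℂ → ℝ) : ∫ z, f (z + c) = ∫ z, f z :=
  integral_add_right_eq_self f c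

/-- **translation invariance of the energy** -/
theorem green_tr (U : Set ℂ) (φ : ℂ → ℝ) (c : ℂ) :
    greenEnergy (tr c U) φ = greenEnergy U (fun z => φ (z + c)) := by
  unfold greenEnergy
  congr 1
  have hfd : ∀ (v : ℂ → ℝ) (z : ℂ), fderiv ℝ (fun w => v (w + c)) z = fderiv ℝ v (z + c) :=
    fun v z => fderiv_comp_add_right c
  ext x
  constructor
  · rintro ⟨v, hv, rfl⟩
    refine ⟨fun z => v (z + c), test_tr hv, ?_⟩
    simp only [hfd]
    rw [integral_tr c (fun z => φ z * v z), integral_tr c (fun z => ‖fderiv ℝ v z‖ ^ 2)]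
  · rintro ⟨v, hv, rfl⟩
    refine ⟨fun z => v (z - c), test_tr' hv, ?_⟩
    have hfd' : ∀ z : ℂ, fderiv ℝ (fun w => v (w - c)) (z + c) = fderiv ℝ v z := by
      intro z
      rw [← hfd (fun w => v (w - c)) z]
      simp only [add_sub_cancel_right]
    rw [← integral_tr c (fun z => φ z * v (z - c)),
      ← integral_tr c (fun z => ‖fderiv ℝ (fun w => v (w - c)) z‖ ^ 2)]
    simp only [hfd', add_sub_cancel_right]

/-! ### rows -/

/-- the pieces `V i + c i` are disjoint -/
def RowD {m : ℕ} (V : Fin m → Set ℂ) (c : Fin m → ℂ) : Prop :=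
  ∀ i j, i ≠ j → Disjoint (tr (c i) (V i)) (tr (c j) (V j))

/-- the union of the row -/
def RW {m : ℕ} (V : Fin m → Set ℂ) (c : Fin m → ℂ) : Set ℂ := ⋃ i, tr (c i) (V i)

open Classical in
/-- the test function on `Ω` given by a test function on the row -/
noncomputable def tf {m : ℕ} (V : Fin m → Set ℂ) (c : Fin m → ℂ) (φ : ℂ → ℝ) : ℂ → ℝ :=
  fun z => ∑ i, (V i).indicator (fun z => φ (z + c i)) z

section

variable {m : ℕ} {V : Fin m → Set ℂ} {c : Fin m → ℂ} {φ : ℂ → ℝ}

theorem ind_tr (i : Fin m) (φ : ℂ → ℝ) (z : ℂ) :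
    (tr (c i) (V i)).indicator φ (z + c i) = (V i).indicator (fun z => φ (z + c i)) z := by
  by_cases hz : z ∈ V i
  · rw [indicator_of_mem hz, indicator_of_mem]
    show z + c i - c i ∈ V i
    rwa [add_sub_cancel_right]
  · rw [indicator_of_notMem hz, indicator_of_notMem]
    intro h
    apply hz
    have : z + c i - c i ∈ V i := h
    rwa [add_sub_cancel_right] at this

theorem test_piece (ho : ∀ i, IsOpen (V i)) (hd : RowD V c) (hφ : IsTest (RW V c) φ) (i : Fin m) :
    IsTest (V i) ((V i).indicator (fun z => φ (z + c i))) := by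
  have h1 : IsTest (tr (c i) (V i)) ((tr (c i) (V i)).indicator φ) :=
    NT814Y.isTest_piece' (U := fun i => tr (c i) (V i)) (fun i => tr_open (ho i))
      (fun i j hij => hd i j hij) hφ i
  have h2 := test_tr h1
  have e : (fun z => (tr (c i) (V i)).indicator φ (z + c i)) =
      (V i).indicator (fun z => φ (z + c i)) := funext fun z => ind_tr i φ z
  rwa [e] at h2

theorem test_tf (ho : ∀ i, IsOpen (V i)) (hd : RowD V c) (hφ : IsTest (RW V c) φ) :
    IsTest (⋃ i, V i) (tf V c φ) := by
  have h := P155.UK.IsTest.sum (U := ⋃ i, V i) Finset.univ (fun _ => 1)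
    (fun i => (V i).indicator (fun z => φ (z + c i))) (fun i _ _ => by
      obtain ⟨h1, h2, h3⟩ := test_piece ho hd hφ i
      exact ⟨h1, h2, h3.trans (subset_iUnion V i)⟩)
  simp only [one_mul] at h
  exact h

theorem ind_tf (hdV : ∀ i j, i ≠ j → Disjoint (V i) (V j)) (i : Fin m) :
    (V i).indicator (tf V c φ) = (V i).indicator (fun z => φ (z + c i)) := by
  funext z
  by_cases hz : z ∈ V i
  · rw [indicator_of_mem hz, indicator_of_mem hz]
    unfold tf
    rw [Finset.sum_eq_single i, indicator_of_mem hz]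
    · intro j _ hji
      exact indicator_of_notMem (fun h => Set.disjoint_left.1 (hdV j i hji) h hz) _
    · intro h
      exact absurd (Finset.mem_univ i) h
  · rw [indicator_of_notMem hz, indicator_of_notMem hz]

/-- **the energy on the row** -/
theorem green_row (ho : ∀ i, IsOpen (V i)) (hd : RowD V c)
    (hdV : ∀ i j, i ≠ j → Disjoint (V i) (V j)) (hφ : IsTest (RW V c) φ) {K K' R O : Set ℂ}
    (hR : IsOpen R) (hdR : Disjoint (⋃ i, V i) R) (hb : Bornology.IsBounded ((⋃ i, V i) ∪ R))
    (hO : ((⋃ i, V i) ∪ R) \ K = O) (hK : ∀ i, tr (c i) (V i) \ K' = tr (c i) (V i \ K)) :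
    greenEnergy (RW V c \ K') φ = greenEnergy O (tf V c φ) := by
  have hbV : ∀ i, Bornology.IsBounded (V i) := fun i =>
    hb.subset ((subset_iUnion V i).trans subset_union_left)
  have hbR : Bornology.IsBounded (⋃ i, tr (c i) (V i)) :=
    Bornology.isBounded_iUnion.2 fun i => tr_bdd (hbV i)
  have h1 : greenEnergy (RW V c \ K') φ =
      ∑ i, greenEnergy (tr (c i) (V i) \ K') ((tr (c i) (V i)).indicator φ) :=
    NT814Y.green_add (U := fun i => tr (c i) (V i)) (fun i => tr_open (ho i))
      (fun i j hij => hd i j hij) hbR hφ (I := Finset.univ) (by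
        have := hφ.2.2
        simpa [RW] using this)
  have h2 : greenEnergy O (tf V c φ) = greenEnergy ((⋃ i, V i) \ K) (tf V c φ) := by
    rw [← hO]
    exact NT814Y.green_part (isOpen_iUnion ho) hR hdR hb (test_tf ho hd hφ)
  have h3 : greenEnergy ((⋃ i, V i) \ K) (tf V c φ) =
      ∑ i, greenEnergy (V i \ K) ((V i).indicator (tf V c φ)) :=
    NT814Y.green_add ho (fun i j hij => hdV i j hij)
      (hb.subset subset_union_left) (test_tf ho hd hφ) (I := Finset.univ) (by
        have := (test_tf ho hd hφ).2.2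
        simpa using this)
  rw [h1, h2, h3]
  refine Finset.sum_congr rfl fun i _ => ?_
  rw [hK i, green_tr, ind_tf hdV i]
  congr 1
  exact funext fun z => ind_tr i φ z

/-! ### topology of the row -/

theorem RW_open (ho : ∀ i, IsOpen (V i)) : IsOpen (RW V c) := isOpen_iUnion fun i => tr_open (ho i)

theorem RW_bdd (hb : ∀ i, Bornology.IsBounded (V i)) : Bornology.IsBounded (RW V c) :=
  Bornology.isBounded_iUnion.2 fun i => tr_bdd (hb i)

theorem RW_closure : closure (RW V c) = ⋃ i, tr (c i) (closure (V i)) := by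
  unfold RW
  rw [closure_iUnion_of_finite]
  simp only [tr_closure]

/-- a piece is disjoint from the closure of another -/
theorem disj_closure (ho : ∀ i, IsOpen (V i)) (hd : RowD V c) {i j : Fin m} (hij : i ≠ j) :
    Disjoint (tr (c i) (V i)) (tr (c j) (closure (V j))) := by
  rw [tr_closure]
  exact (hd i j hij).closure_right (tr_open (ho i))

theorem RW_frontier (ho : ∀ i, IsOpen (V i)) (hd : RowD V c) :
    frontier (RW V c) = ⋃ i, tr (c i) (frontier (V i)) := by
  rw [(RW_open ho).frontier_eq, RW_closure]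
  ext z
  constructor
  · rintro ⟨h1, h2⟩
    obtain ⟨i, hi⟩ := mem_iUnion.1 h1
    refine mem_iUnion.2 ⟨i, ?_⟩
    show z - c i ∈ frontier (V i)
    rw [(ho i).frontier_eq]
    exact ⟨hi, fun h => h2 (mem_iUnion.2 ⟨i, h⟩)⟩
  · intro h
    obtain ⟨i, hi⟩ := mem_iUnion.1 h
    have hi' : z - c i ∈ closure (V i) \ V i := by
      rw [← (ho i).frontier_eq]
      exact hi
    refine ⟨mem_iUnion.2 ⟨i, hi'.1⟩, fun h2 => ?_⟩
    obtain ⟨j, hj⟩ := mem_iUnion.1 h2
    by_cases hji : j = i
    · subst hji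
      exact hi'.2 hj
    · exact Set.disjoint_left.1 (disj_closure ho hd hji) hj hi'.1

theorem RW_comp (ho : ∀ i, IsOpen (V i)) (hc : ∀ i, IsConnected (V i)) (hd : RowD V c)
    (i : Fin m) : ∃ z ∈ RW V c, tr (c i) (V i) = connectedComponentIn (RW V c) z := by
  obtain ⟨z, hz⟩ := tr_nonempty (c := c i) (hc i).nonempty
  have hsub : tr (c i) (V i) ⊆ RW V c := subset_iUnion (fun i => tr (c i) (V i)) i
  refine ⟨z, hsub hz, Subset.antisymm ?_ ?_⟩
  · exact (tr_conn (hc i)).isPreconnected.subset_connectedComponentIn hz hsub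
  · have h1 : IsOpen (⋃ j ∈ {j | j ≠ i}, tr (c j) (V j)) :=
      isOpen_biUnion fun j _ => tr_open (ho j)
    have h2 : Disjoint (tr (c i) (V i)) (⋃ j ∈ {j | j ≠ i}, tr (c j) (V j)) := by
      rw [Set.disjoint_iUnion₂_right]
      exact fun j hj => hd i j (Ne.symm hj)
    refine isPreconnected_connectedComponentIn.subset_left_of_subset_union (tr_open (ho i)) h1 h2
      ?_ ⟨z, mem_connectedComponentIn (hsub hz), hz⟩
    refine (connectedComponentIn_subset _ _).trans fun w hw => ?_
    obtain ⟨j, hj⟩ := mem_iUnion.1 hw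
    by_cases hji : j = i
    · subst hji
      exact Or.inl hj
    · exact Or.inr (mem_biUnion (show j ∈ {j | j ≠ i} from hji) hj)

/-- consecutive pieces touch -/
def RowL {m : ℕ} (V : Fin m → Set ℂ) (c : Fin m → ℂ) : Prop :=
  ∀ i j : Fin m, (j : ℕ) = i + 1 → (tr (c i) (frontier (V i)) ∩ tr (c j) (frontier (V j))).Nonempty

/-- **connectedness of a row** -/
theorem row_conn {n : ℕ} {A : Fin (n + 1) → Set ℂ} (hA : ∀ i, IsConnected (A i))
    (hl : ∀ i j : Fin (n + 1), (j : ℕ) = i + 1 → (A i ∩ A j).Nonempty) :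
    IsConnected (⋃ i, A i) := by
  set B : ℕ → Set ℂ := fun k => A ⟨min k n, by omega⟩ with hB
  have e : ⋃ i, A i = ⋃ k, B k := by
    ext z
    simp only [mem_iUnion, hB]
    constructor
    · rintro ⟨i, hi⟩
      refine ⟨i, ?_⟩
      have : (⟨min (i : ℕ) n, by omega⟩ : Fin (n + 1)) = i := by
        apply Fin.ext
        show min (i : ℕ) n = i
        omega
      rwa [this]
    · rintro ⟨k, hk⟩
      exact ⟨_, hk⟩
  rw [e]
  refine ⟨?_, ?_⟩
  · obtain ⟨z, hz⟩ := (hA ⟨min 0 n, by omega⟩).nonempty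
    exact ⟨z, mem_iUnion.2 ⟨0, hz⟩⟩
  · refine IsPreconnected.iUnion_of_chain (fun k => (hA _).isPreconnected) fun k => ?_
    rw [Order.succ_eq_add_one]
    by_cases h : k + 1 ≤ n
    · apply hl
      show min (k + 1) n = min k n + 1
      omega
    · have e1 : (⟨min (k + 1) n, by omega⟩ : Fin (n + 1)) = ⟨min k n, by omega⟩ := by
        apply Fin.ext
        show min (k + 1) n = min k n
        omega
      show (A _ ∩ A ⟨min (k + 1) n, _⟩).Nonempty
      rw [e1, inter_self]
      exact (hA _).nonempty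

end

end Vale.Agent.P155.SW613
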