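import Vale.Agent.P155.SW613.RowD

/-!
# P155 (SW), block (6b): independence of the carpets in distinct pieces
-/

namespace Vale.Agent.P155.SW613

open MeasureTheory Filter Topology TopologicalSpace ProbabilityTheory Set Vale.Agent.P155
  Vale.Agent.P155.Q1 Vale.Agent.P155.Uq Vale.Agent.P155.SWR V743.Cap V743.Ind

theorem indep_comp {Ω1 Ω2 ι : Type*} {β : ι → Type*} [MeasurableSpace Ω1] [MeasurableSpace Ω2]
    [∀ i, MeasurableSpace (β i)] {μ : Measure Ω1} {f : Ω1 → Ω2} (hf : Measurable f)
    {g : ∀ i, Ω2 → β i} (hg : ∀ i, Measurable (g i)) :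
    iIndepFun g (μ.map f) ↔ iIndepFun (fun i x => g i (f x)) μ := by
  rw [iIndepFun_iff_measure_inter_preimage_eq_mul, iIndepFun_iff_measure_inter_preimage_eq_mul]
  refine forall_congr' fun S => ⟨fun h sets hs => ?_, fun h sets hs => ?_⟩
  · have h1 := h hs
    rw [Measure.map_apply hf (Finset.measurableSet_biInter S fun i hi => hg i (hs i hi))] at h1
    have e1 : f ⁻¹' (⋂ i ∈ S, g i ⁻¹' sets i) = ⋂ i ∈ S, (fun x => g i (f x)) ⁻¹' sets i := by
      rw [preimage_iInter₂]
      rfl
    rw [e1] at h1
    rw [h1]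
    refine Finset.prod_congr rfl fun i hi => ?_
    rw [Measure.map_apply hf (hg i (hs i hi))]
    rfl
  · have h1 := h hs
    rw [Measure.map_apply hf (Finset.measurableSet_biInter S fun i hi => hg i (hs i hi))]
    have e1 : f ⁻¹' (⋂ i ∈ S, g i ⁻¹' sets i) = ⋂ i ∈ S, (fun x => g i (f x)) ⁻¹' sets i := by
      rw [preimage_iInter₂]
      rfl
    rw [e1, h1]
    refine Finset.prod_congr rfl fun i hi => ?_
    rw [Measure.map_apply hf (hg i (hs i hi))]
    rfl

theorem tr_sc {V : Set ℂ} (h : SimplyConnectedSpace V) (c : ℂ) :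
    SimplyConnectedSpace (tr c V) := by
  have e : tr c V = (Homeomorph.addRight c) '' V := by
    rw [tr_image]
    rfl
  rw [e]
  exact ((Homeomorph.addRight c).image V).symm.toHomotopyEquiv.simplyConnectedSpace

theorem measurable_trNC (c : ℂ) :
    Measurable (fun A : NonemptyCompacts ℂ => toNC (tr c (A : Set ℂ))) := by
  have h := measurable_row (m := 1) (V := fun _ => (univ : Set ℂ)) (c := fun _ => c)
  have e : (fun A : NonemptyCompacts ℂ => toNC (tr c (A : Set ℂ))) =
      fun A : NonemptyCompacts ℂ => toNC (⋃ _i : Fin 1, tr c ((A : Set ℂ) ∩ closure univ)) := by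
    funext A
    rw [closure_univ, inter_univ, iUnion_const]
  rw [e]
  exact h

section

variable {Ω B : Set ℂ} {μ : Measure (Sp Ω)} {n : ℕ} {V : Fin (n + 1) → Set ℂ}
  {c : Fin (n + 1) → ℂ}

/-- the canonical carpets -/
def car {Ω : Set ℂ} (s : Sp Ω) : SQ := fun k => (s k).1

theorem rs0_meas (V : Set ℂ) : Measurable (rs0 V) := by
  refine measurable_pi_lambda _ fun k => ?_
  unfold rs0
  by_cases hk : k = 0
  · simp only [hk, if_true]
    exact measurable_const
  · simp only [hk, if_false]
    exact (measurable_cap isClosed_closure).comp (measurable_pi_apply k)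

/-- cutting the row gives back the piece -/
theorem cut_row (h : RHyp Ω B μ V) (hd : RowD V c) (i : Fin (n + 1)) :
    ∀ᵐ s ∂μ, (fun k => toNC (tr (-c i) (cl (tr (c i) (V i)) (fun k => rG V c k (s k).1) k : Set ℂ))) =
      rs0 (V i) (car s) := by
  have hfr : ∀ᵐ s ∂μ, ∀ k, 1 ≤ k → ∀ i, frontier (V i) ⊆ ((s k).1 : Set ℂ) := by
    filter_upwards [h.fr, h.path] with s h1 h2 k hk i
    exact (h1 i).trans (path_le h2 hk)
  filter_upwards [hfr] with s hf
  have hfi : IsCompact (frontier (V i)) :=
    Metric.isCompact_of_isClosed_isBounded isClosed_frontier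
      ((h.hb.subset ((h.vs i).trans h.hBΩ)).closure.subset frontier_subset_closure)
  funext k
  show toNC (tr (-c i) (toNC ((rG V c k (s k).1 : Set ℂ) ∩ closure (tr (c i) (V i))) : Set ℂ)) =
    rs0 (V i) (car s) k
  unfold rs0
  rcases Nat.eq_zero_or_pos k with rfl | hk
  · rw [if_pos rfl, coe_rG_zero h hd]
    have e : frontier (RW V c) ∩ closure (tr (c i) (V i)) = tr (c i) (frontier (V i)) := by
      rw [← tr_closure]
      ext z
      constructor
      · rintro ⟨h1, h2⟩
        show z - c i ∈ frontier (V i)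
        rw [(h.vo i).frontier_eq]
        refine ⟨h2, fun h3 => ?_⟩
        rw [(RW_open h.vo).frontier_eq] at h1
        exact h1.2 (mem_iUnion.2 ⟨i, h3⟩)
      · intro h1
        refine ⟨?_, frontier_subset_closure h1⟩
        rw [RW_frontier h.vo hd]
        exact mem_iUnion.2 ⟨i, h1⟩
    rw [e, coe_toNC (tr_compact hfi) (tr_nonempty (h.vf i).nonempty), tr_tr]
  · rw [if_neg (by omega), coe_rG h hk (hf k hk)]
    have hne : (((s k).1 : Set ℂ) ∩ closure (V i)).Nonempty := by
      obtain ⟨z, hz⟩ := (h.vf i).nonempty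
      exact ⟨z, hf k hk i hz, frontier_subset_closure hz⟩
    have e : (⋃ j, tr (c j) (((s k).1 : Set ℂ) ∩ closure (V j))) ∩ closure (tr (c i) (V i)) =
        tr (c i) (((s k).1 : Set ℂ) ∩ closure (V i)) := by
      rw [← tr_closure]
      ext z
      constructor
      · rintro ⟨h1, h2⟩
        obtain ⟨j, hj⟩ := mem_iUnion.1 h1
        by_cases hji : j = i
        · subst hji
          exact hj
        · have h3 : z - c i ∈ frontier (V i) := by
            rw [(h.vo i).frontier_eq]
            exact ⟨h2, fun h3 =>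
              Set.disjoint_left.1 (disj_closure h.vo hd (Ne.symm hji)) h3 hj.2⟩
          exact ⟨hf k hk i h3, h2⟩
      · intro h1
        exact ⟨mem_iUnion.2 ⟨i, h1⟩, h1.2⟩
    rw [e, coe_toNC (tr_compact ((s k).1.isCompact.inter_right isClosed_closure))
      (tr_nonempty hne), tr_tr]
    rfl

/-- **independence of the carpets in the pieces** -/
theorem row_indep (h : RHyp Ω B μ V) (hd : RowD V c) (hl : RowL V c)
    (hsc : ∀ i, SimplyConnectedSpace (V i)) :
    iIndepFun (fun i s => rs0 (V i) (car s)) μ := by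
  have hprob := h.prob
  set O : Set ℂ := RW V c with hO
  have hOo : IsOpen O := RW_open h.vo
  have hbV : ∀ i, Bornology.IsBounded (V i) := fun i => h.hb.subset ((h.vs i).trans h.hBΩ)
  have hbO : Bornology.IsBounded O := RW_bdd hbV
  have hVO : ∀ i, ∃ z ∈ O, tr (c i) (V i) = connectedComponentIn O z := fun i =>
    RW_comp h.vo h.vc hd i
  have hneO : O.Nonempty := by
    obtain ⟨z, hz, -⟩ := hVO 0
    exact ⟨z, hz⟩
  have hcO : IsConnected (frontier O) := by
    rw [hO, RW_frontier h.vo hd]
    exact row_conn (fun i => tr_conn (h.vf i)) hl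
  have hm := row_carp h hd hl
  have hmG := NT730Y.meas_seq hm
  set L : Measure SQ := μ.map (fun s k => rG V c k (s k).1) with hL
  have hLp : IsProbabilityMeasure L := Measure.isProbabilityMeasure_map hmG.aemeasurable
  have hN : ∀ᵐ t ∂L, Nice O t := by
    rw [hL, ae_map_iff hmG.aemeasurable (nice_meas hOo)]
    exact nice_ae hm
  have hex : ∀ i, ∃ (Θ : Type) (_ : MeasurableSpace Θ) (P : Measure Θ)
      (G : ℕ → Θ → NonemptyCompacts ℂ) (H : ℕ → Θ → (ℂ → ℝ) → ℝ),
      IsProbabilityMeasure P ∧ IsSignedCarpets P (tr (c i) (V i)) G H := fun i =>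
    exi _ (tr_open (h.vo i)) (tr_bdd (hbV i)) (tr_nonempty (h.vc i).nonempty) (tr_sc (hsc i) _)
  choose Θ' mΘ' P' G' H' hP' hG' using hex
  -- shift
  set pre : SQ → SQ := fun t k => t (k - 1) with hpre
  have hprem : Measurable pre := measurable_pi_lambda _ fun k => measurable_pi_apply _
  have hsh : Measurable (fun (s : SQ) (k : ℕ) => s (k + 1)) :=
    measurable_pi_lambda _ fun k => measurable_pi_apply _
  have hμ0 : IsProbabilityMeasure (L.map pre) :=
    Measure.isProbabilityMeasure_map hprem.aemeasurable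
  have hL' : (L.map pre).map (fun s k => s (k + 1)) = L := by
    rw [Measure.map_map hsh hprem]
    have e : ((fun (s : SQ) (k : ℕ) => s (k + 1)) ∘ pre) = id := by
      funext t k
      show t (k + 1 - 1) = t k
      rw [Nat.add_sub_cancel]
    rw [e, Measure.map_id]
  have hinj : Function.Injective (fun i => tr (c i) (V i)) := by
    intro i j hij
    by_contra hne
    obtain ⟨z, hz⟩ := tr_nonempty (c := c i) (h.vc i).nonempty
    have hz' : z ∈ tr (c j) (V j) := by
      have : tr (c i) (V i) = tr (c j) (V j) := hij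
      rwa [← this]
    exact Set.disjoint_left.1 (hd i j hne) hz hz'
  have hI := indep hOo hcO.nonempty hL' hN hinj hVO
    (fun i => (P' i).map (fun x k => G' i k x))
    (fun i => Measure.isProbabilityMeasure_map (NT730Y.meas_seq (hG' i)).aemeasurable)
    (fun i => V743.Ind.pair spl hOo hbO hneO hcO (hVO i) hm (hG' i))
  rw [indep_comp hprem (fun i => V743.Ind.measurable_rst _)] at hI
  have e1 : (fun (i : Fin (n + 1)) (t : SQ) => NO801.Y.rst (tr (c i) (V i)) (pre t)) =
      fun i t => cl (tr (c i) (V i)) t := by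
    funext i t
    rw [V743.Ind.rst_eq]
    congr 1
  rw [e1, hL, indep_comp hmG (fun i => measurable_cl _)] at hI
  have hI2 := hI.comp (fun i (t : SQ) (k : ℕ) => toNC (tr (-c i) (t k : Set ℂ)))
    (fun i => measurable_pi_lambda _ fun k => (measurable_trNC (-c i)).comp (measurable_pi_apply k))
  exact hI2.congr fun i => cut_row h hd i

/-- **the law of the carpets in one piece** -/
theorem one_carp {V : Set ℂ} (h : RHyp Ω B μ (fun _ : Fin 1 => V)) :
    IsSignedCarpets μ V (fun k s => rs0 V (car s) k)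
      (fun k s φ => pr (s k).2 (tf (fun _ : Fin 1 => V) (fun _ => 0) φ)) := by
  have hd : RowD (fun _ : Fin 1 => V) (fun _ => 0) := fun i j hij =>
    absurd (Subsingleton.elim i j) hij
  have hl : RowL (fun _ : Fin 1 => V) (fun _ => 0) := by
    intro i j hij
    have := Subsingleton.elim i j
    subst this
    omega
  have h1 := row_carp h hd hl
  have e1 : RW (fun _ : Fin 1 => V) (fun _ => 0) = V := by
    unfold RW
    rw [iUnion_const, tr_zero]
  have e2 : (fun k (s : Sp Ω) => rG (fun _ : Fin 1 => V) (fun _ => 0) k (s k).1) =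
      fun k s => rs0 V (car s) k := by
    funext k s
    unfold rG rs0
    rw [e1]
    by_cases hk : k = 0
    · rw [if_pos hk, if_pos hk]
    · rw [if_neg hk, if_neg hk, iUnion_const, tr_zero]
      rfl
  rw [e1, e2] at h1
  exact h1

end

end Vale.Agent.P155.SW613
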